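import Vale.Agent.P283R.Eb.Dim

/-!
# P283R, block EB: ampleness is stable under étale base change (row `AMP`)
-/

set_option linter.all false

open Set CategoryTheory AlgebraicGeometry

noncomputable section

namespace Vale.Agent.P283R.Eb

open Vale.Agent.P289 (Pt St toRat val DForm dimension)
open Vale.Agent.P287D Vale.Agent.P283M Vale.Agent.P283M.Stm Vale.Agent.P283M.Stm.Var
open Vale.Agent.P283M.Br (UnAt)
open Vale.Agent.P283M.Am

namespace Amp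

variable {X : Var} {a b : X.K} {x : Pt X.X} {y : X.PrimeDiv}

theorem o_mul (ha : a ≠ 0) (hb : b ≠ 0) (y : X.PrimeDiv) :
    (ord (a * b) y : ℚ) = ord a y + ord b y := od_mul ha hb y.1

theorem o_inv (ha : a ≠ 0) (y : X.PrimeDiv) : (ord a⁻¹ y : ℚ) = -ord a y := od_inv ha y.1

theorem o_pow (ha : a ≠ 0) (y : X.PrimeDiv) (n : ℕ) : (ord (a ^ n) y : ℚ) = n * ord a y :=
  od_pow ha y.1 n

theorem o_un (h : UnAt a x) (hy : y.1 ⤳ x) : (ord a y : ℚ) = 0 := od_un h hy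

theorem un_o (h0 : a ≠ 0) (h : ∀ y : X.PrimeDiv, y.1 ⤳ x → (ord a y : ℚ) = 0) : UnAt a x :=
  un_of_od (nrm X) h0 fun y c d => h ⟨y, c⟩ d

theorem reg_o (h : ∀ y : X.PrimeDiv, y.1 ⤳ x → (0 : ℚ) ≤ ord a y) : RegAt a x :=
  loc_of_od (nrm X) fun _ y c d => h ⟨y, c⟩ d

theorem o_pos (h : RegAt a y.1) (h0 : a ≠ 0) (h1 : ¬ UnAt a y.1) : (1 : ℚ) ≤ ord a y := by
  have k : (0 : ℚ) < ord a y := od_pos (nrm X) y.2 h h0 h1
  have : 0 < ord a y := by exact_mod_cast k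
  exact_mod_cast this

theorem bound {T : Type} {c : T → ℚ} (h : {y | c y ≠ 0}.Finite) : ∃ N : ℕ, ∀ y, 0 < c y + N := by
  obtain ⟨r, hr⟩ := (h.image c).bddBelow
  obtain ⟨N, hN⟩ := exists_nat_gt |r|
  refine ⟨N, fun y => ?_⟩
  by_cases k : c y = 0
  · rw [k]; linarith [abs_nonneg r]
  · linarith [hr ⟨y, k, rfl⟩, neg_abs_le r]

end Amp

open Amp

theorem amp_of (hD : DIV) : AMP := by
  rintro X Z Y W f e g π ι h D D' j ⟨j0, hj⟩ hf ⟨m, m0, h1, h2⟩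
  have dv := hD X Y π ι h.ep
  have i0 : ∀ {a}, a ≠ 0 → ι a ≠ 0 := fun k => (map_ne_zero ι).2 k
  have sp : ∀ {E : Y.PrimeDiv} {y : X.PrimeDiv} {x : Pt Y.X}, E.1.map π = y.1 → E.1 ⤳ x →
      y.1 ⤳ x.map π := fun a b => a ▸ b.map π.continuous
  refine ⟨m, m0, fun x => ?_, fun U' hU' x hx => ?_⟩
  · obtain ⟨a, k⟩ := h1 (x.map π)
    refine ⟨ι a * j ^ m, mul_ne_zero (i0 k.1) (pow_ne_zero _ j0), fun E hE => ?_⟩
    obtain ⟨y, e1, e2⟩ := dv E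
    rw [o_mul (i0 k.1) (pow_ne_zero _ j0), o_pow j0, e2, k.2 y (sp e1 hE), hj E y e1]
    ring
  obtain ⟨_, ⟨U, hU, rfl⟩, xU, -⟩ :=
    Z.X.isBasis_affineOpens.exists_subset_of_mem_open (Set.mem_univ (e (g x))) isOpen_univ
  obtain ⟨b, b1, b2⟩ := hU'.exists_basicOpen_le (V := e ⁻¹ᵁ U) ⟨g x, xU⟩ hx
  have ins : ∀ y : Pt Y.X, y ∈ g ⁻¹ᵁ W.X.basicOpen b → y.map π ∈ f ⁻¹ᵁ U := fun y hy => by
    have w : (π ≫ f) y = (g ≫ e) y := by rw [h.pb.w]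
    rw [Scheme.Hom.comp_apply, Scheme.Hom.comp_apply] at w
    have k : e (g y) ∈ U := b1 hy
    rw [← w] at k
    exact k
  obtain ⟨k, s, V, k0, s1, hV, xV, s2⟩ := h2 U hU (Pt.map π x) (ins x b2)
  have s0 : s ≠ 0 := fun c => ((s2 _).1 xV).2.1 (by rw [c, inv_zero])
  have : Nonempty (g ⁻¹ᵁ U') := ⟨⟨x, hx⟩⟩
  obtain ⟨β, r, u⟩ : ∃ β : Y.K, (∀ y ∈ g ⁻¹ᵁ U', RegAt β y) ∧
      ∀ y ∈ g ⁻¹ᵁ U', UnAt β y ↔ y ∈ g ⁻¹ᵁ W.X.basicOpen b :=
    ⟨_, mem_reg.1 (secK_reg _ (g.app U' b)), fun y hy => by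
      rw [Scheme.preimage_basicOpen]; exact un_secK _ hy⟩
  have β0 : β ≠ 0 := ((u x hx).2 b2).1
  obtain ⟨N, hN⟩ := bound (c := fun y => (ord s y : ℚ) + k * m * D y)
    (((Br.fin X s).union hf).subset fun y a => by
      by_contra c
      simp only [mem_union, mem_setOf_eq, not_or, not_not] at c
      exact a (by rw [c.1, c.2]; simp))
  have t0 : (j ^ (k * m))⁻¹ ≠ 0 := inv_ne_zero (pow_ne_zero _ j0)
  have t1 := mul_ne_zero (i0 s0) t0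
  have t2 := mul_ne_zero t1 (pow_ne_zero N β0)
  have key : ∀ (E : Y.PrimeDiv) (y : X.PrimeDiv), E.1.map π = y.1 →
      (∀ a, ord (ι a) E = ord a y) → (ord (ι s * (j ^ (k * m))⁻¹ * β ^ N) E : ℚ) + k * m * D' E =
        ord s y + k * m * D y + N * ord β E := fun E y e1 e2 => by
    rw [o_mul t1 (pow_ne_zero N β0), o_mul (i0 s0) t0, o_inv (pow_ne_zero _ j0), o_pow j0,
      o_pow β0, e2, hj E y e1]
    push_cast
    ring
  have dic : ∀ (E : Y.PrimeDiv) (y : X.PrimeDiv), E.1 ∈ g ⁻¹ᵁ U' → ¬ UnAt β E.1 →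
      0 < (ord s y : ℚ) + k * m * D y + N * ord β E := fun E y a c => by
    have := mul_le_mul_of_nonneg_left (o_pos (r _ a) β0 c) (Nat.cast_nonneg N : (0 : ℚ) ≤ N)
    linarith [hN y]
  refine ⟨k, ι s * (j ^ (k * m))⁻¹ * β ^ N, π ⁻¹ᵁ V ⊓ g ⁻¹ᵁ W.X.basicOpen b, k0, fun E hE => ?_,
    ?_, ⟨xV, b2⟩, fun x' => ⟨fun ⟨a, c⟩ => ?_, fun ⟨a, c⟩ => ?_⟩⟩
  · obtain ⟨y, e1, e2⟩ := dv E
    rw [key E y e1 e2]
    by_cases c : UnAt β E.1
    · rw [o_un c specializes_rfl, mul_zero, add_zero]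
      exact s1 y (e1 ▸ ins _ ((u _ hE).1 c))
    · exact (dic E y hE c).le
  · have : IsAffine _ := hU
    have : IsAffine _ := hV
    have : IsAffine _ := hU'.basicOpen b
    exact .of_isIso (Scheme.Hom.isPullback_resLE h.pb b1 (fun x c => ((s2 x).1 c).1)
      rfl).isoPullback.hom
  · have q : x' ∈ g ⁻¹ᵁ U' := W.X.basicOpen_le b c
    refine ⟨q, inv_ne_zero t2, fun E hE => ?_⟩
    obtain ⟨y, e1, e2⟩ := dv E
    have k1 := key E y e1 e2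
    have k2 := ((s2 (Pt.map π x')).1 a).2.2 y (sp e1 hE)
    rw [o_un ((u _ q).2 c) hE] at k1
    rw [o_inv s0] at k2
    rw [o_inv t2]
    push_cast at k2 ⊢
    linarith
  · have z : ∀ (E : Y.PrimeDiv) (y : X.PrimeDiv), E.1.map π = y.1 →
        (∀ a, ord (ι a) E = ord a y) → E.1 ⤳ x' →
        (ord s y : ℚ) + k * m * D y + N * ord β E = 0 := fun E y e1 e2 hE => by
      have k1 := c.2 E hE
      rw [o_inv t2] at k1
      push_cast at k1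
      linarith [key E y e1 e2]
    have v : UnAt β x' := un_o β0 fun E hE => by
      obtain ⟨y, e1, e2⟩ := dv E
      exact o_un (by_contra fun q =>
        (dic E y (hE.mem_open (g ⁻¹ᵁ U').isOpen a) q).ne' (z E y e1 e2 hE)) specializes_rfl
    have v1 := (u _ a).1 v
    have v2 := ins _ v1
    obtain ⟨l, hl⟩ := h1 (Pt.map π x')
    have l0 := mul_ne_zero s0 (pow_ne_zero k hl.1)
    have ol : ∀ y : X.PrimeDiv, y.1 ⤳ Pt.map π x' →
        (ord (s * l ^ k) y : ℚ) = ord s y + k * m * D y := fun y hy => by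
      rw [o_mul s0 (pow_ne_zero k hl.1), o_pow hl.1, hl.2 y hy, mul_assoc]
    have rg : RegAt (s * l ^ k) (Pt.map π x') := reg_o fun y hy =>
      ol y hy ▸ s1 y (hy.mem_open (f ⁻¹ᵁ U).isOpen v2)
    have un := (h.ep.pe.un rg).1 (un_o (i0 l0) fun E hE => by
      obtain ⟨y, e1, e2⟩ := dv E
      have k1 := z E y e1 e2 hE
      rw [o_un v hE, mul_zero, add_zero] at k1
      rw [e2, ol y (sp e1 hE), k1])
    refine ⟨(s2 (Pt.map π x')).2 ⟨v2, inv_ne_zero s0, fun y hy => ?_⟩, v1⟩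
    have k1 := o_un un hy
    rw [ol y hy] at k1
    rw [o_inv s0]
    push_cast
    linarith

/-- **AMP** -/
theorem amp : AMP := amp_of div

end Vale.Agent.P283R.Eb
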