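import Vale.Agent.P283R.Eb.St

/-!
# P283R, block EB: the complement descends along an étale base change
-/

set_option linter.all false

open Set CategoryTheory AlgebraicGeometry
open Vale.Agent.P289 Vale.Agent.P289.H219 Vale.Agent.P270L Vale.Agent.P283M.Am Vale.Agent.P299.G

noncomputable section

namespace Vale.Agent.P283R.Eb

open Vale.Agent.P287D Vale.Agent.P283M Vale.Agent.P283M.Br Vale.Agent.P283M.Stm.Var
open Vale.Agent.P283M.Stm (Contraction Pair HasKltComplement)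
open Vale.Agent.P297Z Vale.Agent.P283R.Br

namespace Ds

variable {X Z : Stm.Var} {f : X.X ⟶ Z.X}

/-- `A` is the coordinate ring of the affine neighbourhood `V` of `z`, `χ` the evaluation at `z` -/
structure Bz (f : X.X ⟶ Z.X) (V : Z.X.Opens) (z : Pt Z.X)
    (A : Subalgebra ℂ X.K) (χ : A →ₐ[ℂ] ℂ) : Prop where
  mem : ∀ a, a ∈ A ↔ ∀ x ∈ f ⁻¹ᵁ V, RegAt a x
  fg : A.FG
  ctr : ∀ P : Pl X.K, (∀ a ∈ A, a ∈ P.ring) → ∃ x ∈ f ⁻¹ᵁ V, Dom P.ring x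
  sp : ∀ x ∈ f ⁻¹ᵁ V, (∀ a : A, χ a ≠ 0 → UnAt (a : X.K) x) → Pt.map f x ⤳ z
  un : ∀ a : A, χ a ≠ 0 → ∃ U : Z.X.Opens, U ≤ V ∧ z ∈ U ∧ ∀ x ∈ f ⁻¹ᵁ U, UnAt (a : X.K) x

theorem exists_bz (hf : Contraction f) {V : Z.X.Opens} (hV : IsAffineOpen V)
    {z : Pt Z.X} (hzV : z ∈ V) (hz : IsClosed ({z} : Set (Pt Z.X))) : ∃ A χ, Bz f V z A χ := by
  classical
  obtain ⟨h1, _, h3, h4⟩ := hf
  obtain ⟨x₀, rfl⟩ := h3.surj z
  have : Nonempty ↑(f ⁻¹ᵁ V) := ⟨⟨x₀, hzV⟩⟩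
  have : Nonempty V := ⟨⟨_, hzV⟩⟩
  have := h4 V
  let _ : Algebra ℂ Γ(Z.X, V) := (cst Z.str V).toAlgebra
  have : Algebra.FiniteType ℂ Γ(Z.X, V) := cst_finiteType Z.str hV
  let φ : Γ(Z.X, V) →ₐ[ℂ] X.K := { pl f V with
    commutes' := fun c => by
      change X.X.germToFunctionField _ ((f.app V).hom (cst Z.str V c)) = constants X.str c
      rw [app_cst, germ_cst, h1] }
  have hm := hV.primeIdealOf_isMaximal_of_isClosed ⟨_, hzV⟩ hz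
  set M := (hV.primeIdealOf ⟨_, hzV⟩).asIdeal with hM
  have inj : Function.Injective φ := pl_inj f V
  let e := AlgEquiv.ofInjective φ inj
  have : Nontrivial (Γ(Z.X, V) ⧸ M) := Ideal.Quotient.nontrivial_iff.2 hm.ne_top
  let r := AlgEquiv.ofBijective (Algebra.ofId ℂ (Γ(Z.X, V) ⧸ M))
    ⟨(algebraMap ℂ _).injective, res_surj _ hm⟩
  let χ : φ.range →ₐ[ℂ] ℂ :=
    (r.symm.toAlgHom.comp (Ideal.Quotient.mkₐ ℂ M)).comp e.symm.toAlgHom
  have hχ : ∀ t, χ (e t) ≠ 0 ↔ f x₀ ∈ Z.X.basicOpen t := fun t => by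
    have : χ (e t) = r.symm (Ideal.Quotient.mk M t) := by simp [χ]
    rw [this, Ne, map_eq_zero_iff _ r.symm.injective, Ideal.Quotient.eq_zero_iff_mem, hM,
      mem_primeIdealOf hV _ hzV, not_not, Scheme.mem_basicOpen _ _ _ hzV]
  refine ⟨φ.range, χ, fun a => ⟨?_, fun ha => exists_pl f V (mem_reg.2 ha)⟩, ?_,
    fun P hP => ?_, fun x hx h => ?_, fun a ha => ?_⟩
  · rintro ⟨t, rfl⟩ x hx
    exact mem_reg.1 (pl_reg f V t) x hx
  · rw [← Algebra.map_top]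
    exact (Algebra.FiniteType.out (R := ℂ) (A := Γ(Z.X, V))).map φ
  · obtain ⟨x, h5, h6⟩ := exists_dom hV P.ring fun t => hP _ ⟨t, rfl⟩
    exact ⟨x, h5, dom_B h6⟩
  · have hx' : f x ∈ V := hx
    refine specializes_of_le hV hzV hx' fun t ht => ?_
    rw [mem_primeIdealOf] at ht ⊢
    intro k
    refine ht ((Scheme.mem_basicOpen _ _ _ hx').1 ((un_pl hx' t).1 ?_))
    exact h (e t) ((hχ t).2 ((Scheme.mem_basicOpen _ _ _ hzV).2 k))
  · obtain ⟨t, rfl⟩ := e.surjective a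
    exact ⟨Z.X.basicOpen t, Z.X.basicOpen_le _, (hχ t).1 ha, fun x hx =>
      (un_pl (Z.X.basicOpen_le _ hx) t).2 hx⟩

variable {V : Z.X.Opens} {z : Pt Z.X} {A : Subalgebra ℂ X.K} {χ : A →ₐ[ℂ] ℂ} {P : Pl X.K}

/-- a place through `χ` contains the local ring of a point of the fibre -/
theorem Bz.fib (h : Bz f V z A χ) (hf : Contraction f) (hP : Thr A χ P) :
    ∃ x' : Pt X.X, Pt.map f x' = z ∧ ∀ a, RegAt a x' → a ∈ P.ring := by
  obtain ⟨x, hx, d⟩ := h.ctr P hP.1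
  have s := h.sp x hx fun a ha => un_of_rd d ((h.mem _).1 a.2 x hx) (mt (hP.2 a) ha)
  have := hf.2.1
  have c := f.isClosedMap _ (isClosed_closure (s := ({x} : Set X.X)))
  obtain ⟨x', a, b⟩ := s.mem_closed c ⟨x, subset_closure rfl, rfl⟩
  exact ⟨x', b, fun g hg => (d g (reg_gen (specializes_iff_mem_closure.2 a) hg)).1⟩

/-- a place which contains the local ring of a point over `V` has a centre over `V` -/
theorem ctr_of (hf : Contraction f) (hV : IsAffineOpen V) {x : Pt X.X} (hx : x ∈ f ⁻¹ᵁ V)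
    (h : ∀ a, RegAt a x → a ∈ P.ring) : ∃ x' ∈ f ⁻¹ᵁ V, Dom P.ring x' := by
  have : Nonempty ↑(f ⁻¹ᵁ V) := ⟨⟨x, hx⟩⟩
  have := hf.2.1
  obtain ⟨x', h5, h6⟩ := exists_dom hV P.ring fun t => h _ (mem_reg.1 (pl_reg f V t) x hx)
  exact ⟨x', h5, dom_B h6⟩

/-- **the downstairs half**: a system of sections which separates all places -/
theorem down {n N k : ℕ} {ω : DForm ℂ X.K (n + 1)} {B : X.QDiv} {h : X.K} {y : Fin (n + 1) → X.K}
    (hK : FF X.K (n + 1)) (fr : P283M.Br.Frm ω h) (h0 : h ≠ 0) (hB : ∀ E, 0 ≤ B E)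
    (hy : P283R.Frm y) (e : cn X.K (n + 1) = kap y) (zV : z ∈ V) (bs : Bz f V z A χ) (hN : 2 ≤ N)
    (ψ : Fin k → X.K) (h1 : ∃ l, ψ l ≠ 0)
    (h2 : ∀ l, ψ l ≠ 0 → ∀ E : X.PrimeDiv, E.1 ∈ f ⁻¹ᵁ V →
      N * ((formOrd ω (RingEquiv.refl X.K) E : ℚ) - ord h E + B E) ≤ ord (ψ l) E)
    (h3 : ∀ P, Thr A χ P → ∃ l, ψ l ≠ 0 ∧ 0 < ld y N (ψ l) P) : HasKltComplement f ω B N z := by
  classical
  have N0 : (0 : ℝ) < N := Nat.cast_pos.2 (by omega)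
  have ld1 : ∀ (f : X.K) (P : Pl X.K), ld y N f P = 1 + dsc (n + 1) ((N : ℝ)⁻¹ • dv f) P :=
    fun f P => by
      simp only [ld, dsc, e, Pi.sub_apply, Pi.smul_apply, dv, smul_eq_mul]
      ring
  have tp : ∀ P, Thp A {RingHom.ker χ} P ↔ Thr A χ P := fun P =>
    ⟨fun ⟨a, q, b, c⟩ => ⟨a, fun f z => by rw [b] at c; exact c f z⟩,
      fun ⟨a, b⟩ => ⟨a, _, rfl, b⟩⟩
  obtain ⟨φ, f1, f0, f2⟩ := ber _ N X.K A {RingHom.ker χ} y (Finset.univ.image ψ) hK bs.fg hy hN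
    (let ⟨l, a⟩ := h1; ⟨ψ l, Finset.mem_image_of_mem _ (Finset.mem_univ l), a⟩) fun P p =>
      let ⟨l, a⟩ := h3 P ((tp P).1 p); ⟨ψ l, Finset.mem_image_of_mem _ (Finset.mem_univ l), a⟩
  obtain ⟨a', ha', hk⟩ := opn (Nat.succ_pos n) hK bs.fg χ (Γ := (N : ℝ)⁻¹ • dv φ)
    (Submodule.smul_mem _ _ (dv_mem_Car φ)) fun P p => by linarith [ld1 φ P ▸ f2 P ((tp P).2 p)]
  obtain ⟨U, UV, zU, hU⟩ := bs.un a' ha'
  refine cpl hK fr h0 hB zU (by omega) f0 (fun E hE P hP => ?_) fun x hx P hP =>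
    hk P (fun c hc => (hP c ((bs.mem c).1 hc x (UV hx))).1) (hP.rd (hU x hx))
  obtain ⟨Q, q, o⟩ := pl_of plc E
  obtain rfl := pl_eq q hP
  have a := fr _ _ E Q q o
  have b2 : φ ∈ Q.sub (-(N * (cn X.K (n + 1) Q + B E))) := (Submodule.span_le.2 fun z hz => by
    obtain ⟨j, -, rfl⟩ := Finset.mem_image.1 hz
    refine Q.mem_sub.2 (or_iff_not_imp_left.2 fun j0 => ?_)
    have := h2 j j0 E (UV hE)
    rw [o, o, ← Rat.cast_le (K := ℝ)] at this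
    push_cast at this
    rw [a, add_sub_cancel_right] at this
    linarith) f1
  have b3 := (Q.mem_sub.1 b2).resolve_left f0
  simp only [dsc, Pi.sub_apply, Pi.smul_apply, dv, smul_eq_mul]
  have : cn X.K (n + 1) Q + B E ≤ (N : ℝ)⁻¹ * Q.ord φ := by
    rw [le_inv_mul_iff₀ N0]
    linarith
  linarith

end Ds

open Ds

theorem dscr : DSCR := by
  intro dim div lft con sec X Z Y W f e g π ι bc d n ω ω' B B' w hd hn hdim hω hω' sm hB hz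
    ⟨U', Λ, φ', wU, hΛ, hp, lq⟩
  classical
  obtain ⟨d, rfl⟩ : ∃ m, d = m + 1 := ⟨d - 1, by omega⟩
  have hK := ffd X _ hdim
  have hK' := ffd Y _ (dim X Y π ι bc.ep _ hdim)
  have hg : Contraction g := con X Z Y W f e g π ι bc
  let _ := ι.toAlgebra
  have : IsScalarTower ℂ X.K Y.K := .of_algebraMap_eq fun c => (bc.ep.pe.cst bc.ep.ov c).symm
  obtain ⟨h, h0, fr⟩ := frm X _ hK ω hω
  obtain ⟨h', h0', fr'⟩ := frm Y _ hK' ω' hω'
  obtain ⟨J, J0, y, hy, e1, e2⟩ := Et.exists_rat hK hK'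
  obtain ⟨_, ⟨V, hV, rfl⟩, zV, -⟩ :=
    Z.X.isBasis_affineOpens.exists_subset_of_mem_open (Set.mem_univ (e w)) isOpen_univ
  obtain ⟨_, ⟨V', hV', rfl⟩, wV, le⟩ := W.X.isBasis_affineOpens.exists_subset_of_mem_open
    (show w ∈ (U' ⊓ e ⁻¹ᵁ V : W.X.Opens) from ⟨wU, zV⟩) (U' ⊓ e ⁻¹ᵁ V).isOpen
  obtain ⟨A, χ, bs⟩ := exists_bz bc.con hV zV hz
  obtain ⟨y₀, hy₀⟩ := hg.2.2.1.surj w
  have p0 : φ' ≠ 0 := (lq y₀ (show g y₀ ∈ U' from hy₀ ▸ wU)).1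
  have n0 : (0 : ℝ) < n := Nat.cast_pos.2 hn
  have hJ := pow_ne_zero (2 * n) (mul_ne_zero h0' J0)
  have φ0 : φ' ^ 2 / (h' * J) ^ (2 * n) ≠ 0 := div_ne_zero (pow_ne_zero _ p0) hJ
  have o : ∀ Q : Pl Y.K, (Q.ord (φ' ^ 2 / (h' * J) ^ (2 * n)) : ℝ) =
      2 * Q.ord φ' - 2 * n * (Q.ord h' + Q.ord J) := fun Q => by
    rw [Pl.ord_div _ (pow_ne_zero _ p0) hJ, Pl.ord_pow, Pl.ord_pow, Pl.ord_mul _ h0' J0]
    push_cast
    rfl
  obtain ⟨k, ψ, b, x1, x0, x2⟩ := sec X Z Y W f e g π ι bc V V'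
    (fun E => ⌈((2 * n : ℕ) : ℚ) * ((formOrd ω (RingEquiv.refl X.K) E : ℚ) - ord h E + B E)⌉)
    (φ' ^ 2 / (h' * J) ^ (2 * n)) hV hV' (fun x hx => (le hx).2) ⟨w, wV⟩
    ((((form_fin hK fr).union (fin X h)).union B.support.finite_toSet).subset fun E hE =>
      by_contra fun k => hE (by
        rw [mem_union, mem_union, not_or, not_or, mem_setOf, mem_setOf, not_not, not_not,
          Finset.mem_coe, Finsupp.notMem_support_iff] at k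
        simp [k.1.1, k.1.2, k.2])) φ0
    fun E E₀ hE hπ => by
      obtain ⟨E₁, a1, a2⟩ := div X Y π ι bc.ep E
      obtain rfl : E₀ = E₁ := Subtype.ext (hπ.symm.trans a1)
      obtain ⟨Q, q, oq⟩ := pl_of plc E
      obtain ⟨P, p, op⟩ := pl_of plc E₀
      have a3 : ∀ a, Q.ord (ι a) = P.ord a := fun a => by rw [← oq, a2, op]
      have l : Lies (algebraMap X.K Y.K) Q P := fun a => by
        by_cases a0 : a = 0
        · simp [a0]
        rw [← Pl.ord_nonneg_iff _ a0, ← Pl.ord_nonneg_iff _ ((map_ne_zero _).2 a0), ← a3]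
        rfl
      have r := ((ram _ X.K Y.K (IsScalarTower.toAlgHom ℂ X.K Y.K) y hK hK' hy).2 Q P l).2.2
      change 1 + kap (fun i => algebraMap X.K Y.K (y i)) Q = Q.ord (ι P.t) * (1 + kap y P) at r
      rw [a3, P.ord_t] at r
      have hU : E.1 ∈ g ⁻¹ᵁ U' := (le hE).1
      have b1 := (lq _ hU).2 E specializes_rfl
      have b2 := hΛ E hU
      rw [sm E E₀ hπ, ← Rat.cast_le (K := ℝ)] at b2
      rw [oq, logCan] at b1
      have b3 : (Q.ord φ' : ℝ) = n * (formOrd ω' (RingEquiv.refl Y.K) E + (Λ E : ℝ)) := by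
        exact_mod_cast b1
      rw [fr' _ _ E Q q oq, e2] at b3
      rw [Int.ceil_le, oq, op, ← Rat.cast_le (K := ℝ)]
      push_cast at r ⊢
      rw [o, fr _ _ E₀ P p op, e1, b3]
      nlinarith
  refine down hK fr h0 hB hy e1 zV bs (by omega) ψ ?_
    (fun l a E hE => Int.ceil_le.1 (x2 l a E hE)) fun P p => ?_
  · by_contra z
    simp only [not_exists, not_not] at z
    exact φ0 (x1.trans (Finset.sum_eq_zero fun j _ => by rw [z, map_zero, zero_mul]))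
  obtain ⟨x', c1, c2⟩ := bs.fib bc.con p
  obtain ⟨y', rfl, c3⟩ := Scheme.exists_preimage_of_isPullback bc.pb x' w c1
  obtain ⟨Q, l, c4⟩ := lft X Y π ι bc.ep _ y' P hdim c2
  have yV : y' ∈ g ⁻¹ᵁ V' := show g y' ∈ V' from c3 ▸ wV
  obtain ⟨x, c5, c6⟩ := ctr_of hg hV' yV c4
  obtain ⟨j, j0, j1⟩ := Et.exists_le (P := Q) (fun j => c4 _ (x0 j y' yV)) (x1 ▸ φ0)
  refine ⟨j, (map_ne_zero _).1 j0, ?_⟩
  have e0 : (0 : ℝ) < Q.ord (algebraMap X.K Y.K P.t) := by exact_mod_cast l.e_pos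
  have u := Tq.ld_up ram hK hK' hy e1 (2 * n) (ψ j) (R := Q) l
  have ld1 : ld y (2 * n) (ψ j) P = 1 + dsc (d + 1) (((2 * n : ℕ) : ℝ)⁻¹ • dv (ψ j)) P := by
    simp only [ld, dsc, e1, Pi.sub_apply, Pi.smul_apply, dv, smul_eq_mul]
    ring
  rw [ld1, ← mul_pos_iff_of_pos_left e0, ← u]
  obtain ⟨M, E, rfl, i⟩ := mod Y Q x c6
  have oq := (plc Y M.Y M.pull (mdc Y M).1 E).2 Q i
  have b1 := hp.2.2 M E (le c5).1 n φ' hn (lq _ (le c5).1)
  rw [fr' _ _ E Q i oq, oq, e2] at b1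
  have b2 : (Q.ord (algebraMap X.K Y.K (ψ j)) : ℝ) ≤ Q.ord (φ' ^ 2 / (h' * J) ^ (2 * n)) := by
    rw [← x1] at j1
    exact_mod_cast j1
  have b3 := div_le_div_of_nonneg_right b2 (show (0 : ℝ) ≤ 2 * n by positivity)
  rw [o, sub_div, mul_div_cancel_left₀ _ (by positivity),
    mul_div_mul_left _ _ (two_ne_zero' ℝ)] at b3
  unfold ld
  push_cast
  linarith

end Vale.Agent.P283R.Eb
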