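import Vale.Agent.P283R.Eb.St

/-!
# P283R, block EB: the canonical divisor and the pairs along an etale morphism
-/

set_option linter.all false

open Set CategoryTheory AlgebraicGeometry

noncomputable section

namespace Vale.Agent.P283R.Eb

open Vale.Agent.P289 (Pt St toRat val DForm dimension)
open Vale.Agent.P287D Vale.Agent.P283M Vale.Agent.P283M.Stm Vale.Agent.P283M.Stm.Var
open Vale.Agent.P283M.Br Vale.Agent.P283R.Br Vale.Agent.P297Z
open Vale.Agent.P283R.Et (Pe Rat exists_rat)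

variable {X Y : Var} {π : Y.X ⟶ X.X} {ι : X.K →+* Y.K} {d m : ℕ}
  {D' : Y.PrimeDiv → ℚ} {D : X.PrimeDiv → ℚ} {j : Y.K} {g : X.K}

theorem ord_mul' {a b : X.K} (ha : a ≠ 0) (hb : b ≠ 0) (E : X.PrimeDiv) :
    ord (a * b) E = ord a E + ord b E := by
  obtain ⟨Q, -, o⟩ := pl_of plc E
  rw [o, o, o, Pl.ord_mul _ ha hb]

theorem ord_pow' (a : X.K) (k : ℕ) (E : X.PrimeDiv) : ord (a ^ k) E = k * ord a E := by
  obtain ⟨Q, -, o⟩ := pl_of plc E
  rw [o, o, Pl.ord_pow]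

/-- local equations pull back -/
theorem Lin.loc (div : DIV) (h : Ep π ι) (l : Lin π D' D j) {x : Pt Y.X}
    (hg : LocalEq D m g (x.map π)) : LocalEq D' m (ι g * j ^ m) x := by
  have g0 := (map_ne_zero ι).2 hg.1
  refine ⟨mul_ne_zero g0 (pow_ne_zero _ l.1), fun E hE => ?_⟩
  obtain ⟨y, y1, y2⟩ := div X Y π ι h E
  have a := hg.2 y (y1 ▸ hE.map π.continuous)
  rw [ord_mul' g0 (pow_ne_zero _ l.1), ord_pow', y2, l.2 E y y1]
  push_cast
  rw [a]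
  ring

theorem Ep.tower (h : Ep π ι) : letI := ι.toAlgebra; IsScalarTower ℂ X.K Y.K :=
  letI := ι.toAlgebra
  .of_algebraMap_eq fun c => (h.pe.cst h.ov c).symm

/-- centres of places go down -/
theorem Ep.dom (h : Ep π ι) {Q : Pl Y.K} {P : Pl X.K} (l : Lies ι Q P) {x : Pt Y.X}
    (hx : Dom Q.ring x) : Dom P.ring (x.map π) := fun a ha => by
  have r := h.pe.reg ha
  refine ⟨(l a).2 (hx _ r).1, fun a0 k => ?_⟩
  have a1 := (map_ne_zero ι).2 a0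
  exact ((h.pe.un ha).1 ⟨a1, r, (hx _ r).2 a1 (map_inv₀ ι a ▸ (l _).1 k)⟩).2.2

theorem lin_of (div : DIV) (h : Ep π ι) (hK : FF X.K d) (hK' : FF Y.K d) {ω : DForm ℂ X.K d}
    {ω' : DForm ℂ Y.K d} {s : X.K} {s' J : Y.K} (s0 : s ≠ 0) (s0' : s' ≠ 0) (fr : Br.Frm ω s)
    (fr' : Br.Frm ω' s') (hJ : letI := ι.toAlgebra; Rat d X.K J) {B : X.QDiv} {B' : Y.QDiv}
    (hs : Same π B' B) : Lin π (logCan ω' B') (logCan ω B) (J * s' / ι s) := by
  let _ := ι.toAlgebra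
  have := h.tower
  have s1 := (map_ne_zero ι).2 s0
  refine ⟨div_ne_zero (mul_ne_zero hJ.1 s0') s1, fun E y e => ?_⟩
  obtain ⟨y₀, y1, y2⟩ := div X Y π ι h E
  obtain rfl : y₀ = y := Subtype.ext (y1.symm.trans e)
  obtain ⟨Q, q, o⟩ := pl_of plc E
  obtain ⟨P, p, o'⟩ := pl_of plc y₀
  have oo : ∀ a, Q.ord (ι a) = P.ord a := fun a => by rw [← o, ← o', y2]
  have l : Lies (algebraMap X.K Y.K) Q P := fun a => by
    rcases eq_or_ne a 0 with rfl | a0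
    · simp
    · rw [← Pl.ord_nonneg_iff _ a0, ← Pl.ord_nonneg_iff _ ((map_ne_zero _).2 a0)]
      exact (oo a).symm ▸ Iff.rfl
  have k := hJ.dsc_up hK hK' one_pos one_ne_zero l
  have e1 : Q.ord (algebraMap X.K Y.K P.t) = 1 := (oo _).trans P.ord_t
  rw [e1] at k
  simp only [dsc, Pi.sub_apply, Pi.smul_apply, smul_eq_mul, dv_apply, map_one, one_mul, pow_one,
    Nat.cast_one, inv_one, Pl.ord_one, Int.cast_one, Int.cast_zero, sub_zero] at k
  have a := fr _ _ y₀ P p o'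
  have a' := fr' _ _ E Q q o
  rw [logCan, logCan, hs E y₀ e, o, Pl.ord_div _ (mul_ne_zero hJ.1 s0') s1,
    Pl.ord_mul _ hJ.1 s0', oo, ← Rat.cast_inj (α := ℝ)]
  push_cast
  rw [a, a']
  linarith

theorem can_of (dim : DIM) (div : DIV) : CAN := fun X Y π ι h d ω ω' hd h0 h0' => by
  let _ := ι.toAlgebra
  have := h.tower
  have hK := ffd X _ hd
  have hK' := ffd Y _ (dim X Y π ι h d hd)
  obtain ⟨s, s0, fr⟩ := frm X _ hK ω h0
  obtain ⟨s', s0', fr'⟩ := frm Y _ hK' ω' h0'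
  obtain ⟨J, hJ⟩ := exists_rat hK hK'
  exact ⟨_, fun B B' hs => lin_of div h hK hK' s0 s0' fr fr' hJ hs⟩

theorem pai_of (dim : DIM) (div : DIV) : PAI :=
  fun X Y π ι h d ω ω' B B' p hd h0 h0' hs hp hB => by
  let _ := ι.toAlgebra
  have := h.tower
  have hK := ffd X _ hd
  have hK' := ffd Y _ (dim X Y π ι h d hd)
  obtain ⟨s, s0, fr⟩ := frm X _ hK ω h0
  obtain ⟨s', s0', fr'⟩ := frm Y _ hK' ω' h0'
  obtain ⟨J, hJ⟩ := exists_rat hK hK'
  have l := lin_of div h hK hK' s0 s0' fr fr' hJ hs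
  refine ⟨fun E _ => ?_, fun x _ => ?_, fun M E _ m' g' m0' hg' => ?_⟩
  · obtain ⟨y, y1, -⟩ := div X Y π ι h E
    rw [hs E y y1]
    exact hB.1 y trivial
  · obtain ⟨m, g, m0, hg⟩ := hB.2.1 (Pt.map π x) trivial
    exact ⟨m, _, m0, l.loc div h hg⟩
  · obtain ⟨⟨Q, q⟩, o⟩ := plc Y M.Y M.pull (mdc Y M).1 E
    have dq := (mdc Y M).2 E Q q
    obtain ⟨P, lp⟩ := Pb.down hK hK' Q
    have dp := h.dom lp dq
    obtain ⟨m, g, m0, hg⟩ := hB.2.1 (Pt.map π (Pt.map M.π E.1)) trivial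
    have lq := l.loc div h hg
    obtain ⟨M₀, E₀, e₀, i⟩ := mod X P _ dp
    have o₀ := (plc X M₀.Y M₀.pull (mdc X M₀).1 E₀).2 P i
    have a := hB.2.2 M₀ E₀ trivial m g m0 (e₀ ▸ hg)
    rw [fr _ _ E₀ P i o₀, o₀, ← dsc_eq m0 hg.1 s0] at a
    have e1 : (1 : ℝ) ≤ Q.ord (algebraMap X.K Y.K P.t) := by exact_mod_cast lp.e_pos
    have b := hp _ _ e1 a
    have s1 := (map_ne_zero ι).2 s0
    have c : algebraMap X.K Y.K (g / s ^ m) * J ^ m = ι g * (J * s' / ι s) ^ m / s' ^ m := by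
      change ι _ * _ = _
      rw [map_div₀, map_pow, div_pow, mul_pow]
      field_simp
    rw [← hJ.dsc_up hK hK' m0 (div_ne_zero hg.1 (pow_ne_zero _ s0)) lp, c,
      dsc_eq m0 lq.1 s0'] at b
    have u := loc_uniq har plc hg' lq dq
    have u' : (Q.ord g' : ℝ) / m' = Q.ord (ι g * (J * s' / ι s) ^ m) / m := by
      rw [div_eq_div_iff (Nat.cast_ne_zero.2 m0'.ne') (Nat.cast_ne_zero.2 m0.ne')]
      linarith
    rw [fr' _ _ E Q q (o Q q), o Q q, u']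
    exact b

end Vale.Agent.P283R.Eb
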