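import Vale.Agent.P283R.Eb.St

/-!
# P283R, block EB: the base change of a contraction is a contraction
-/

set_option linter.all false

open Set CategoryTheory AlgebraicGeometry Limits

noncomputable section

namespace Vale.Agent.P283R.Eb

open Vale.Agent.P283M Vale.Agent.P283M.Stm

/-- flat base change on small affine opens -/
theorem Con.iso_app {X Y S T : Scheme.{0}} {e : T ⟶ S} {π : Y ⟶ X} {f : X ⟶ S} {g : Y ⟶ T}
    (H : IsPullback π g f e) [Flat e] [QuasiCompact f] [QuasiSeparated f]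
    (hf : ∀ U, IsIso (f.app U)) {V : S.Opens} {U : T.Opens} (hV : IsAffineOpen V)
    (hU : IsAffineOpen U) (le : U ≤ e ⁻¹ᵁ V) : IsIso (g.app U) := by
  have hY : g ⁻¹ᵁ U = π ⁻¹ᵁ (f ⁻¹ᵁ V) ⊓ g ⁻¹ᵁ U := by
    refine (inf_eq_right.2 fun y hy => ?_).symm
    have h1 : e (g y) ∈ V := le hy
    have h2 : f (π y) = e (g y) := by
      rw [← Scheme.Hom.comp_apply, ← Scheme.Hom.comp_apply, H.w]
    change f (π y) ∈ V
    rwa [h2]
  have c : IsCompact (X := X) (f ⁻¹ᵁ V) := f.isCompact_preimage hV.isCompact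
  have s : IsQuasiSeparated (α := X) (f ⁻¹ᵁ V) := f.isQuasiSeparated_preimage hV.isQuasiSeparated
  have p := (isIso_pushoutSection_iff H le le_rfl hY).1
    (isIso_pushoutSection_of_isQuasiSeparated_of_flat_right H le le_rfl hY hV hU c s)
  have : IsIso (f.appLE V (f ⁻¹ᵁ V) le_rfl) := by
    rw [← Scheme.Hom.app_eq_appLE]
    exact hf V
  have k := p.isIso_inr_of_isIso
  rw [Scheme.Hom.app_eq_appLE]
  exact k

theorem Con.iso_all {X Y S T : Scheme.{0}} {e : T ⟶ S} {π : Y ⟶ X} {f : X ⟶ S} {g : Y ⟶ T}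
    (H : IsPullback π g f e) [Flat e] [QuasiCompact f] [QuasiSeparated f]
    (hf : ∀ U, IsIso (f.app U)) (U : T.Opens) : IsIso (g.app U) := by
  let I := {U : T.Opens // IsAffineOpen U ∧ ∃ V : S.Opens, IsAffineOpen V ∧ U ≤ e ⁻¹ᵁ V}
  have hb : TopologicalSpace.Opens.IsBasis (range (Subtype.val : I → T.Opens)) := by
    rw [TopologicalSpace.Opens.isBasis_iff_nbhd]
    intro U x hx
    obtain ⟨_, ⟨V, hV, rfl⟩, xV, -⟩ :=
      S.isBasis_affineOpens.exists_subset_of_mem_open (mem_univ (e x)) isOpen_univ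
    obtain ⟨_, ⟨U', hU', rfl⟩, xU, le⟩ :=
      T.isBasis_affineOpens.exists_subset_of_mem_open (show x ∈ U ⊓ e ⁻¹ᵁ V from ⟨hx, xV⟩)
        (U ⊓ e ⁻¹ᵁ V).isOpen
    exact ⟨U', ⟨⟨U', hU', V, hV, fun y hy => (le hy).2⟩, rfl⟩, xU, fun y hy => (le hy).1⟩
  let φ : T.sheaf ⟶ (TopCat.Sheaf.pushforward _ g.base).obj Y.sheaf := ⟨g.c⟩
  have : IsIso φ := TopCat.Sheaf.isIso_iff_isIso_basis hb fun i =>
    let ⟨V, hV, le⟩ := i.2.2
    Con.iso_app H hf hV i.2.1 le
  have k : IsIso φ.hom := inferInstanceAs (IsIso ((TopCat.Sheaf.forget _ _).map φ))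
  exact inferInstanceAs (IsIso (φ.hom.app (Opposite.op U)))

/-- **CON** -/
theorem con : CON := fun X Z Y W f e g π ι h => by
  obtain ⟨h1, h2, h3, h4⟩ := h.con
  have := h.et
  refine ⟨?_, MorphismProperty.of_isPullback h.pb h2, MorphismProperty.of_isPullback h.pb h3,
    Con.iso_all h.pb h4⟩
  rw [← h.ov, ← h.ep.ov, ← h1, ← Category.assoc, ← Category.assoc, h.pb.w]

end Vale.Agent.P283R.Eb
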