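import Vale.Agent.P283R.Eb.St

/-!
# P283R, block EB, row FANR: Fano type is preserved by étale base change
-/

open Set CategoryTheory AlgebraicGeometry

noncomputable section

namespace Vale.Agent.P283R.Eb

open Vale.Agent.P289 (Pt St toRat val DForm dimension)
open Vale.Agent.P287D Vale.Agent.P283M Vale.Agent.P283M.Stm Vale.Agent.P283M.Stm.Var
open Vale.Agent.P283R.Et (Pe)

variable {X Y : Var} {π : Y.X ⟶ X.X} {ι : X.K →+* Y.K}

/-- a `ℚ`-divisor pulls back along an étale morphism -/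
theorem exists_same (div : DIV) (h : Ep π ι) (C : X.QDiv) : ∃ C' : Y.QDiv, Same π C' C := by
  choose y hy ho using div X Y π ι h
  have hu : ∀ z : X.PrimeDiv, ∃ a : X.K, ord a z = 1 := fun z =>
    let ⟨P, _, o⟩ := Br.pl_of Br.plc z
    ⟨P.t, (o _).trans P.ord_t⟩
  choose a ha using hu
  have fi : (Function.support fun E => C (y E)).Finite := by
    refine (C.support.finite_toSet.biUnion fun z _ => Br.fin Y (ι (a z))).subset fun E hE => ?_
    refine mem_biUnion (x := y E) (Finsupp.mem_support_iff.2 hE) ?_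
    change ord (ι (a (y E))) E ≠ 0
    rw [ho, ha]
    exact one_ne_zero
  refine ⟨Finsupp.ofSupportFinite _ fi, fun E z e => ?_⟩
  obtain rfl : y E = z := Subtype.ext ((hy E).symm.trans e)
  rfl

theorem Lin.neg {D' : Y.PrimeDiv → ℚ} {D : X.PrimeDiv → ℚ} {j : Y.K} (h : Lin π D' D j) :
    Lin π (-D') (-D) j⁻¹ := by
  refine ⟨inv_ne_zero h.1, fun E y e => ?_⟩
  obtain ⟨P, -, o⟩ := Br.pl_of Br.plc E
  rw [Pi.neg_apply, Pi.neg_apply, h.2 E y e, o, o, P297Z.Pl.ord_inv]
  push_cast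
  ring

/-- the divisor `K + B` has a finite support -/
theorem logCan_fin {d : ℕ} (hd : 1 ≤ d) (hX : dimension X.str = d) {ω : DForm ℂ X.K d}
    (hω : ω.Nonzero) (B : X.QDiv) : {y | logCan ω B y ≠ 0}.Finite := by
  obtain ⟨n, rfl⟩ : ∃ n, d = n + 1 := ⟨d - 1, (Nat.sub_add_cancel hd).symm⟩
  have hK := Br.ffd X _ hX
  obtain ⟨h, -, fr⟩ := Br.frm X _ hK ω hω
  refine ((P283R.Br.form_fin hK fr).union B.support.finite_toSet).subset fun E hE => ?_
  by_cases c : B E = 0
  · refine .inl fun e => hE ?_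
    rw [logCan, c, e, Int.cast_zero, add_zero]
  · exact .inr (Finsupp.mem_support_iff.2 c)

/-- **FANR** -/
theorem fanr : FANR := by
  intro div can pai amp X Z Y W f e g π ι h d ω ω' hd hX hω hω' ⟨C, hC, hA⟩
  obtain ⟨C', s⟩ := exists_same div h.ep C
  obtain ⟨j, hj⟩ := can X Y π ι h.ep d ω ω' hX hω hω'
  refine ⟨C', pai X Y π ι h.ep d ω ω' C C' _ hX hω hω' s
    (fun a e he ha => mul_pos (zero_lt_one.trans_le he) ha) hC, ?_⟩
  exact amp X Z Y W f e g π ι h _ _ _ (hj C C' s).neg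
    ((logCan_fin hd hX hω C).subset fun y hy => neg_ne_zero.1 hy) hA

end Vale.Agent.P283R.Eb
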