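import Vale.Agent.P283R.Eb.St
import Vale.Agent.P283M.Crv.Deg
import Mathlib.AlgebraicGeometry.AlgClosed.Basic

/-!
# P283R, block EB: nef divisors pull back along an étale base change
-/

set_option linter.all false

open Set CategoryTheory AlgebraicGeometry Limits
open Vale.Agent.P289 Vale.Agent.P270L Vale.Agent.P283M.Am Vale.Agent.P299.G

noncomputable section

namespace Vale.Agent.P283R.Eb

open Vale.Agent.P283M Vale.Agent.P283M.Br Vale.Agent.P283M.Stm.Var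
open Vale.Agent.P283M.Stm (Contraction Curve NefOver)
open Vale.Agent.P283R.Et (Pe)

namespace Nf

variable {X Z Y W : Stm.Var}

theorem sep (V : Stm.Var) : IsSeparated V.str := by
  obtain ⟨n, i, h1, h2⟩ := V.qproj
  rw [← h2]
  infer_instance

/-- a reduced closed subscheme of a fibre is a closed subscheme downstairs -/
theorem closed {f : X.X ⟶ Z.X} {e : W.X ⟶ Z.X} {g : Y.X ⟶ W.X} {π : Y.X ⟶ X.X}
    {ι : X.K →+* Y.K} (h : Bc f e g π ι) {C : Scheme.{0}} [IsIntegral C] (c : C ⟶ Y.X)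
    [IsClosedImmersion c] {t : W.X} (ht : ∀ z, g (c z) = t) : IsClosedImmersion (c ≫ π) := by
  have := h.con.2.1
  have : IsProper g := MorphismProperty.of_isPullback h.pb h.con.2.1
  have hc : IsClosed ({t} : Set W.X) := by
    have k := (c ≫ g).isClosedMap _ isClosed_univ
    have e : (c ≫ g) '' univ = {t} := by
      refine Subset.antisymm ?_ ?_
      · rintro _ ⟨z, -, rfl⟩
        exact ht z
      · rintro _ rfl
        exact ⟨genericPoint C, trivial, ht _⟩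
    rwa [e] at k
  let s := pointOfClosedPoint W.str t hc
  have := sep W
  have := sep Z
  have : IsClosedImmersion (s ≫ W.str) := by
    rw [pointOfClosedPoint_comp]; infer_instance
  have : IsClosedImmersion s := .of_comp s W.str
  have : IsClosedImmersion ((s ≫ e) ≫ Z.str) := by
    rw [Category.assoc, h.ov]; infer_instance
  have : IsClosedImmersion (s ≫ e) := .of_comp _ Z.str
  have : Surjective (pullback.fst (c ≫ g) s) := ⟨fun z => by
    have : z ∈ range (pullback.fst (c ≫ g) s) := by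
      rw [Scheme.Pullback.range_fst]
      exact ⟨default, (pointOfClosedPoint_apply _ _ _ _).trans (ht z).symm⟩
    exact this⟩
  have := isIso_of_isClosedImmersion_of_surjective (pullback.fst (c ≫ g) s)
  let l := inv (pullback.fst (c ≫ g) s) ≫ pullback.snd (c ≫ g) s
  have hl : l ≫ s = c ≫ g := by
    rw [Category.assoc, ← pullback.condition, IsIso.inv_hom_id_assoc]
  let a : C ⟶ pullback f (s ≫ e) := pullback.lift (c ≫ π) l (by
    rw [Category.assoc, h.pb.w, ← Category.assoc, ← hl, Category.assoc])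
  let b : pullback f (s ≫ e) ⟶ Y.X := h.pb.lift (pullback.fst _ _) (pullback.snd _ _ ≫ s) (by
    rw [pullback.condition, Category.assoc])
  have e1 : b ≫ π = pullback.fst _ _ := h.pb.lift_fst _ _ _
  have e2 : a ≫ pullback.fst _ _ = c ≫ π := pullback.lift_fst _ _ _
  have e3 : a ≫ b = c := h.pb.hom_ext (by rw [Category.assoc, e1, e2]) (by
    rw [Category.assoc, h.pb.lift_snd, ← Category.assoc, pullback.lift_snd, hl])
  have : IsSeparated (b ≫ π) := by rw [e1]; infer_instance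
  have : IsSeparated b := .of_comp b π
  have : IsClosedImmersion (a ≫ b) := by rw [e3]; infer_instance
  have : IsClosedImmersion a := .of_comp a b
  rw [← e2]
  infer_instance

section loc

variable {D D' : X.PrimeDiv → ℚ} {m m' : ℕ} {a b : X.K} {x x' : Pt X.X}

theorem ord_mul (ha : a ≠ 0) (hb : b ≠ 0) (E : X.PrimeDiv) : ord (a * b) E = ord a E + ord b E :=
  Scheme.ord_mul ha hb

theorem ord_pow (ha : a ≠ 0) (k : ℕ) (E : X.PrimeDiv) : ord (a ^ k) E = k * ord a E := by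
  obtain ⟨P, -, e⟩ := pl_of plc E
  rw [e, e, P297Z.Pl.ord_pow]

theorem le_pow (h : LocalEq D m a x) (k : ℕ) : LocalEq D (k * m) (a ^ k) x :=
  ⟨pow_ne_zero _ h.1, fun E hE => by
    rw [ord_pow h.1, Int.cast_mul, h.2 E hE]; push_cast; ring⟩

theorem le_gen (h : LocalEq D m a x) (hx : x' ⤳ x) : LocalEq D m a x' :=
  ⟨h.1, fun E hE => h.2 E (hE.trans hx)⟩

theorem le_un (h : LocalEq D m a x) (h' : LocalEq D m b x) : UnAt (a / b) x := by
  have k : ∀ E : X.PrimeDiv, E.1 ⤳ x → ord (a / b) E = 0 ∧ ord (a / b)⁻¹ E = 0 := fun E hE => by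
    obtain ⟨P, -, e⟩ := pl_of plc E
    have u := (h.2 E hE).trans (h'.2 E hE).symm
    rw [e, e, Int.cast_inj] at u
    rw [e, e, P297Z.Pl.ord_inv, P297Z.Pl.ord_div _ h.1 h'.1, u, sub_self]
    exact ⟨rfl, rfl⟩
  exact ⟨div_ne_zero h.1 h'.1, har X _ x fun E hE => (k E hE).1.ge,
    har X _ x fun E hE => (k E hE).2.ge⟩

theorem le_mul (h : LocalEq D m a x) (u : UnAt b x) : LocalEq D m (a * b) x :=
  ⟨mul_ne_zero h.1 u.1, fun E hE => by
    obtain ⟨P, d, e⟩ := pl_of plc E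
    rw [ord_mul h.1 u.1, e b, d.dom.ord ⟨u.1, reg_gen hE u.2.1, reg_gen hE u.2.2⟩, add_zero,
      h.2 E hE]⟩

theorem unif (hD : {y | D y ≠ 0}.Finite) (h : ∀ x, ∃ m a, 0 < m ∧ LocalEq D m a x) :
    ∃ M, 0 < M ∧ ∀ x, ∃ a, LocalEq D M a x := by
  have fs : Fs (ex D) := (hD.image Subtype.val).subset fun y a =>
    ⟨⟨y, a.1⟩, fun k => a.2 ((ex_apply (X := X) ⟨y, a.1⟩).trans k), rfl⟩
  choose m a h0 h using h
  obtain ⟨T, hT⟩ := cover (⊤ : X.X.Opens) (fun y : X.X => {x | LocalEq D (m y) (a y) x})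
    (fun y => by simpa only [localEq_iff] using (fs.smul (m y)).isOpen (a y)⁻¹)
    fun x _ => ⟨x, h x⟩
  refine ⟨∏ y ∈ T, m y, Finset.prod_pos fun y _ => h0 y, fun x => ?_⟩
  obtain ⟨y, hy, k⟩ := hT x trivial
  obtain ⟨r, e⟩ := Finset.dvd_prod_of_mem m hy
  rw [e, mul_comm]
  exact ⟨_, le_pow k r⟩

end loc

theorem le_up {π : Y.X ⟶ X.X} {ι : X.K →+* Y.K} (hd : ∀ E : Y.PrimeDiv, ∃ y : X.PrimeDiv,
      E.1.map π = y.1 ∧ ∀ a, ord (ι a) E = ord a y) {D : X.PrimeDiv → ℚ} {D' : Y.PrimeDiv → ℚ}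
    {j : Y.K} (hl : Lin π D' D j) {m : ℕ} {a : X.K} {y : Pt Y.X} (h : LocalEq D m a (y.map π)) :
    LocalEq D' m (ι a * j ^ m) y := by
  have a0 := (map_ne_zero ι).2 h.1
  refine ⟨mul_ne_zero a0 (pow_ne_zero _ hl.1), fun E hE => ?_⟩
  obtain ⟨F, e, o⟩ := hd E
  rw [ord_mul a0 (pow_ne_zero _ hl.1), ord_pow hl.1, o, hl.2 E F e, Int.cast_add,
    h.2 F (e ▸ hE.map π.continuous)]
  push_cast
  ring

section crv

variable {C : Scheme.{0}} [IsIntegral C] [IsLocallyNoetherian C]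

theorem ord_one (z : C) : Scheme.ord (1 : C.functionField) z = 0 := by
  have := Scheme.ord_mul (x := z) (one_ne_zero (α := C.functionField)) one_ne_zero
  rw [mul_one] at this
  omega

theorem ord_pw {u : C.functionField} (hu : u ≠ 0) (k : ℕ) (z : C) :
    Scheme.ord (u ^ k) z = k * Scheme.ord u z := by
  induction k with
  | zero => rw [pow_zero, ord_one]; simp
  | succ k ih => rw [pow_succ, Scheme.ord_mul (pow_ne_zero _ hu) hu, ih]; push_cast; ring

theorem ord_un {z : C} {a : C.presheaf.stalk z} (ha : IsUnit a) : Scheme.ord (toK z a) z = 0 := by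
  by_cases hz : Order.coheight z = 1
  · have : Ring.KrullDimLE 1 (C.presheaf.stalk z) := krullDimLE_of_coheight_le hz.le
    have k : toK z a ≠ 0 := (ha.map (toK z)).ne_zero
    rw [Scheme.ord_eq_iff hz k]
    exact Ring.ordFrac_of_isUnit ha
  · exact Scheme.ord_eq_zero_of_coheight_neq_one hz _

theorem ord_rs (c : C ⟶ Y.X) {z : C} {u : Y.K} (h : UnAt u (c z)) :
    Scheme.ord (S.rs c u) z = 0 := by
  obtain ⟨a, rfl⟩ := h.2.1
  exact (congrArg (Scheme.ord · z) (Crv.rs_toK' z a)).trans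
    (ord_un ((S.un_toK.1 h).map (c.stalkMap z).hom))

theorem rs_up {π : Y.X ⟶ X.X} {ι : X.K →+* Y.K} (h : Pe π ι) (c : C ⟶ Y.X) {u : X.K}
    (hu : RegAt u (π (c (genericPoint C)))) : S.rs c (ι u) = S.rs (c ≫ π) u := by
  obtain ⟨a, rfl⟩ := hu
  rw [h (c (genericPoint C)) a]
  refine (S.rs_toK c _).trans (Eq.trans ?_ (S.rs_toK (c ≫ π) a).symm)
  exact (congrArg (fun k => k.hom a) (Scheme.Hom.stalkMap_comp c π (genericPoint C))).symm

theorem key {π : Y.X ⟶ X.X} {ι : X.K →+* Y.K} (h : Pe π ι) (c : C ⟶ Y.X) {z : C} {b g J : Y.K}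
    {A A₀ v : X.K} {M : ℕ} (g0 : g ≠ 0) (J0 : J ≠ 0) (a0 : A ≠ 0) (a1 : A₀ ≠ 0)
    (u2 : UnAt (b / g) (c (genericPoint C))) (u0 : UnAt (g ^ M / (ι A₀ * J)) (c (genericPoint C)))
    (u3 : UnAt (b ^ M / (ι A * J)) (c z)) (u1 : UnAt (A / (A₀ * v)) (π (c (genericPoint C))))
    (uv : UnAt v (π (c (genericPoint C))))
    (rv : S.rs (c ≫ π) v = S.rs c (g ^ M / (ι A₀ * J))) :
    Scheme.ord (S.rs (c ≫ π) (A / (A₀ * v))) z = M * Scheme.ord (S.rs c (b / g)) z := by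
  have sp := (genericPoint_specializes z).map c.continuous
  have u4 : UnAt _ (c (genericPoint C)) := ⟨u3.1, reg_gen sp u3.2.1, reg_gen sp u3.2.2⟩
  have r1 := h.reg (y := c (genericPoint C)) u1.2.1
  have r2 := h.reg (y := c (genericPoint C)) uv.2.1
  have e2 : (b / g) ^ M * (g ^ M / (ι A₀ * J)) = b ^ M / (ι A * J) * ι (A / (A₀ * v)) * ι v := by
    have := (map_ne_zero ι).2 a0
    have := (map_ne_zero ι).2 a1
    have := (map_ne_zero ι).2 uv.1
    rw [map_div₀, map_mul, div_pow]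
    field_simp
  have e3 := congrArg (S.rs c) e2
  rw [S.rs_mul (reg_pow u2.2.1 M) u0.2.1, S.rs_mul (reg_mul u4.2.1 r1) r2, S.rs_mul u4.2.1 r1,
    S.rs_pow u2.2.1, rs_up h c uv.2.1, rv, rs_up h c u1.2.1] at e3
  have e4 := mul_right_cancel₀ ((S.rs_ne_zero u0.2.1).2 u0) e3
  have n1 : S.rs (c ≫ π) (A / (A₀ * v)) ≠ 0 := (S.rs_ne_zero (ι := c ≫ π) u1.2.1).2 u1
  rw [← ord_pw ((S.rs_ne_zero u2.2.1).2 u2), e4, Scheme.ord_mul ((S.rs_ne_zero u4.2.1).2 u4) n1,
    ord_rs c u3, zero_add]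

theorem lift {π : Y.X ⟶ X.X} (c : C ⟶ Y.X) [IsClosedImmersion (c ≫ π)] {u : C.functionField}
    (hu : u ≠ 0) : ∃ v : X.K, UnAt v (π (c (genericPoint C))) ∧ S.rs (c ≫ π) v = u := by
  obtain ⟨v, hv⟩ := (c ≫ π).stalkMap_surjective (genericPoint C) u
  have rv : S.rs (c ≫ π) (toK _ v) = u := (S.rs_toK _ v).trans hv
  exact ⟨_, (S.rs_ne_zero (ι := c ≫ π) ⟨v, rfl⟩).1 (rv.symm ▸ hu), rv⟩

theorem res (c : C ⟶ Y.X) {u : Y.K} (α : St Y.X (Pt.map c (Pt.generic C))) (h : toRat α = u) :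
    restr c α = S.rs c u := (S.rs_toK c α).symm.trans (congrArg (S.rs c) h)

end crv

end Nf

open Nf in
theorem nef_of (hd : DIV) : NEF := by
  intro X Z Y W f e g π ι h D D' j hl hD hq hn C ⟨t, ht⟩ m n ⟨g₀, w, hg, hw, en⟩
  have := closed h C.ι ht
  let C' : Curve X := ⟨C.C, C.ι ≫ π, by rw [Category.assoc, h.ep.ov]; exact C.dim_one⟩
  obtain ⟨M, M0, hM⟩ := unif hD hq
  have hM' : ∀ x, ∃ a, LocalEq D (m * M) a x := fun x => let ⟨_, k⟩ := hM x; ⟨_, le_pow k m⟩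
  choose a hb using hM'
  have up := fun y : Pt Y.X => le_up (hd X Y π ι h.ep) hl (hb (y.map π))
  have sp : ∀ z, C.ι (genericPoint C.C) ⤳ C.ι z := fun z =>
    (genericPoint_specializes z).map C.ι.continuous
  have pw : ∀ {u : Y.K} {y : Pt Y.X}, LocalEq D' m u y → LocalEq D' (m * M) (u ^ M) y :=
    fun k => mul_comm M m ▸ le_pow k M
  have u0 := le_un (pw hg) (up _)
  obtain ⟨v, uv, rv⟩ := lift (π := π) C.ι ((S.rs_ne_zero u0.2.1).2 u0)
  have hG := le_mul (hb _) uv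
  have u1 := fun z => le_un (le_gen (hb (π (C.ι z))) ((sp z).map π.continuous)) hG
  have hd' : C'.IsDeg D (m * M) _ := ⟨_, fun z => S.rs (C.ι ≫ π)
      (a (π (C.ι z)) / (a (π (C.ι (genericPoint C.C))) * v)), hG, fun z _ =>
    let ⟨α, hα⟩ := (u1 z).2.1
    ⟨_, α, hb _, hα, res (C.ι ≫ π) α hα⟩, rfl⟩
  have k := hn C' ⟨e t, fun z => by
    rw [← ht z]
    exact congrArg (fun k => k (C.ι z)) h.pb.w⟩ _ _ hd'
  refine le_of_mul_le_mul_left (a := (M : ℤ)) ?_ (by exact_mod_cast M0)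
  rw [mul_zero, en, mul_finsum]
  refine k.trans_eq (finsum_congr fun z => ?_)
  obtain ⟨b, α, h1, h2, h3⟩ := hw z.1 z.2
  rw [← h3, res C.ι α h2]
  exact key h.ep.pe C.ι hg.1 (pow_ne_zero _ hl.1) (hb _).1 (hb _).1 (le_un (le_gen h1 (sp z)) hg)
    u0 (le_un (pw h1) (up _)) (u1 z) uv rv

end Vale.Agent.P283R.Eb
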