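import Vale.Agent.P283R.Eb.Ten

/-!
# P283R, block EB: flat base change for the sections of a Weil divisor
-/

set_option linter.all false

open Set CategoryTheory AlgebraicGeometry TensorProduct
open Vale.Agent.P289 Vale.Agent.P289.H219 Vale.Agent.P270L Vale.Agent.P283M.Am Vale.Agent.P299.G

noncomputable section

namespace Vale.Agent.P283R.Eb

open Vale.Agent.P287D Vale.Agent.P283M Vale.Agent.P283M.Br Vale.Agent.P283M.Stm.Var
open Vale.Agent.P283R.Et (Pe)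
open Vale.Agent.P297Z

variable {X Z Y W : Stm.Var}

namespace Se

theorem pd_eq {y y' : X.PrimeDiv} (h : y.1 ⤳ y'.1) : y = y' := by
  refine Subtype.ext (by_contra fun ne => ?_)
  have l : y'.1 < y.1 := lt_of_le_not_ge h fun k => ne (h.antisymm k).eq
  have := Order.coheight_strictAnti l (by rw [y.2]; exact ENat.coe_lt_top 1)
  rw [y.2, y'.2] at this
  exact lt_irrefl _ this

theorem gen_ne (y : X.PrimeDiv) : ¬ y.1 ⤳ genericPoint X.X := fun h => by
  have e := y.2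
  rw [(h.antisymm (genericPoint_specializes _)).eq] at e
  have : Order.coheight (genericPoint X.X) = 0 :=
    Order.coheight_eq_zero.2 fun b _ => genericPoint_specializes b
  exact zero_ne_one (this.symm.trans e)

/-- the complement of finitely many prime divisors -/
def off (U : X.X.Opens) {T : Set X.PrimeDiv} (h : T.Finite) : X.X.Opens :=
  U ⊓ ⟨(⋃ y ∈ T, closure {y.1})ᶜ, (h.isClosed_biUnion fun _ _ => isClosed_closure).isOpen_compl⟩

theorem mem_off {U : X.X.Opens} {T : Set X.PrimeDiv} {h : T.Finite} {x : Pt X.X} :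
    x ∈ off U h ↔ x ∈ U ∧ ∀ y ∈ T, ¬ y.1 ⤳ x :=
  and_congr_right' (by
    change x ∉ _ ↔ _
    simp only [mem_iUnion, not_exists, specializes_iff_mem_closure])

theorem gen_map {π : Y.X ⟶ X.X} [Flat π] : π (genericPoint Y.X) = genericPoint X.X := by
  obtain ⟨y, a, b⟩ := Flat.generalizingMap π (genericPoint_specializes (π (genericPoint Y.X)))
  rw [← b, (a.antisymm (genericPoint_specializes y)).eq]

theorem reg_ord {a : X.K} {y : X.PrimeDiv} (h : RegAt a y.1) : 0 ≤ ord a y := by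
  obtain ⟨P, e, o⟩ := pl_of plc y
  rw [o]
  exact Pl.ord_nonneg_of_mem _ ((e a).2 h)

theorem ordm {a b : X.K} (ha : a ≠ 0) (hb : b ≠ 0) (y : X.PrimeDiv) :
    ord (a * b) y = ord a y + ord b y := Scheme.ord_mul ha hb

theorem exists_ord (y : X.PrimeDiv) (n : ℤ) : ∃ a : X.K, a ≠ 0 ∧ ord a y = n := by
  obtain ⟨P, e, o⟩ := pl_of plc y
  exact ⟨P.t ^ n, zpow_ne_zero _ P.t_ne, by rw [o, Pl.ord_zpow, P.ord_t, mul_one]⟩

end Se

open Se

theorem sec_of (div : DIV) : SEC := by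
  intro X Z Y W f e g π ι h V V' c φ hV hV' le ⟨w, hw⟩ fc φ0 hφ
  classical
  have := h.et
  have := h.ep.et
  have := h.con.2.2.1
  have : Surjective g := MorphismProperty.of_isPullback h.pb inferInstance
  have gV' : genericPoint Y.X ∈ g ⁻¹ᵁ V' := by
    obtain ⟨y, rfl⟩ := g.surjective w
    exact (genericPoint_specializes y).mem_open (g ⁻¹ᵁ V').isOpen hw
  have lf : ∀ y ∈ g ⁻¹ᵁ V', π y ∈ f ⁻¹ᵁ V := fun y hy => by
    change (π ≫ f) y ∈ V
    rw [h.pb.w]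
    exact le hy
  have gV : genericPoint X.X ∈ f ⁻¹ᵁ V := gen_map (π := π) ▸ lf _ gV'
  have : Nonempty ↑(f ⁻¹ᵁ V) := ⟨⟨_, gV⟩⟩
  have : Nonempty ↑(g ⁻¹ᵁ V') := ⟨⟨_, gV'⟩⟩
  let _ : Algebra Γ(Z.X, V) Γ(W.X, V') := (e.appLE V V' le).hom.toAlgebra
  let _ : Algebra Γ(Z.X, V) X.K := (pl f V).toAlgebra
  let _ : Algebra Γ(Z.X, V) Y.K := (ι.comp (pl f V)).toAlgebra
  let _ : Algebra Γ(W.X, V') Y.K := (pl g V').toAlgebra
  let _ : Algebra X.K Y.K := ι.toAlgebra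
  have : IsScalarTower Γ(Z.X, V) Γ(W.X, V') Y.K := .of_algebraMap_eq fun r => (com h le r).symm
  have : IsScalarTower Γ(Z.X, V) X.K Y.K := .of_algebraMap_eq fun _ => rfl
  have : Module.Flat Γ(Z.X, V) Γ(W.X, V') := e.flat_appLE hV hV' le
  have tn := fun (U : X.X.Opens) (hU : U ≤ f ⁻¹ᵁ V) (k : genericPoint X.X ∈ U) =>
    have : Nonempty U := ⟨⟨_, k⟩⟩
    have : Nonempty ↑(π ⁻¹ᵁ U ⊓ g ⁻¹ᵁ V') :=
      ⟨⟨genericPoint Y.X, show π _ ∈ U from gen_map (π := π) ▸ k, gV'⟩⟩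
    ten (π := π) h hV hV' le rfl (fun _ => rfl) (fun _ => rfl) hU
  have inj : Function.Injective (pm : Γ(W.X, V') ⊗[Γ(Z.X, V)] X.K → Y.K) := by
    obtain ⟨_, ⟨U, hU, rfl⟩, a, b⟩ :=
      X.X.isBasis_affineOpens.exists_subset_of_mem_open gV (f ⁻¹ᵁ V).isOpen
    exact (tn U b a).2 hU
  have rg : ∀ (T : Set X.PrimeDiv) (hT : T.Finite) (x : Y.K), (∀ (E : Y.PrimeDiv) (y : X.PrimeDiv),
      E.1 ∈ g ⁻¹ᵁ V' → E.1.map π = y.1 → y ∉ T → 0 ≤ ord x E) →
      ∀ N : Submodule Γ(Z.X, V) X.K, (∀ a ∈ reg (off (f ⁻¹ᵁ V) hT), a ∈ N) →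
        ∃ t ∈ sp Γ(W.X, V') N, pm t = x := fun T hT x hx N hN =>
    (tn (off (f ⁻¹ᵁ V) hT) inf_le_left (mem_off.2 ⟨gV, fun y _ => gen_ne y⟩)).1 N hN x
      (mem_reg.2 fun p hp => har Y x p fun E hE => by
        obtain ⟨y, e1, -⟩ := div X Y π ι h.ep E
        exact hx E y (hE.mem_open (g ⁻¹ᵁ V').isOpen hp.2) e1 fun k =>
          ((mem_off (h := hT)).1 hp.1).2 y k (e1 ▸ hE.map π.continuous))
  let sub : ∀ (S : Set (Pt X.X)) (a : X.K), (∀ x ∈ S, x ∈ f ⁻¹ᵁ V) → Submodule Γ(Z.X, V) X.K :=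
    fun S a hS =>
      { carrier := {ψ | ∀ x ∈ S, RegAt (a * ψ) x}
        add_mem' := fun h1 h2 x hx => by rw [mul_add]; exact (lr x).add_mem (h1 x hx) (h2 x hx)
        zero_mem' := fun x _ => by rw [mul_zero]; exact (lr x).zero_mem
        smul_mem' := fun r ψ h1 x hx => by
          rw [Algebra.smul_def, mul_left_comm]
          exact reg_mul (mem_reg.1 (pl_reg f V r) x (hS x hx)) (h1 x hx) }
  obtain ⟨t, ht, rfl⟩ := rg _ fc φ (fun E y a b k => (not_not.1 k).symm.trans_le (hφ E y a b))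
    (sub (off (f ⁻¹ᵁ V) fc) 1 fun x hx => hx.1) fun a ha x hx => by
      rw [one_mul]; exact mem_reg.1 ha x hx
  choose u u0 hu using fun y : X.PrimeDiv => exists_ord y (-c y)
  let I := {y : X.PrimeDiv // c y ≠ 0 ∧ y.1 ∈ f ⁻¹ᵁ V}
  have : Finite I := (fc.subset fun y a => a.1 : {y : X.PrimeDiv | c y ≠ 0 ∧ _}.Finite)
  let N : Option I → Submodule Γ(Z.X, V) X.K := fun i => i.elim
    (sub (off (f ⁻¹ᵁ V) fc) 1 fun x hx => hx.1) fun y => sub {y.1.1} (u y.1) fun x hx => hx ▸ y.2.2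
  obtain ⟨k, b, ψ, hψ, e1⟩ := sp_ex (sp_inf N (t := t) fun i => by
    rcases i with _ | y
    · exact ht
    have x0 : ι (u y.1) * pm t ≠ 0 := mul_ne_zero ((map_ne_zero ι).2 (u0 _)) φ0
    choose dn d1 d2 using div X Y π ι h.ep
    let T : Set X.PrimeDiv := (dn '' {E | ord (ι (u y.1) * pm t) E ≠ 0}) \ {y.1}
    have hT : T.Finite := ((fin Y _).image dn).diff
    obtain ⟨s, hs, e2⟩ := rg T hT (ι (u y.1) * pm t) (fun E y' a b k => by
        obtain rfl : dn E = y' := Subtype.ext ((d1 E).symm.trans b)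
        by_cases z : dn E = y.1
        · have := hφ E _ a b
          rw [ordm ((map_ne_zero ι).2 (u0 _)) φ0, d2, z, hu, ← z]
          omega
        · exact (not_not.1 fun q => k ⟨⟨E, q, rfl⟩, z⟩).ge)
      (sub {y.1.1} 1 fun x hx => hx ▸ y.2.2) fun a ha x hx => by
        rw [one_mul, hx]
        exact mem_reg.1 ha _ (mem_off.2 ⟨y.2.2, fun y' a b => a.2 (pd_eq b)⟩)
    have e3 : mu (u y.1)⁻¹ s = t := by
      rw [← inj ((pm_mu _ _).trans e2.symm), mu_mu, inv_mul_cancel₀ (u0 _), mu_one]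
    rw [← e3]
    exact mu_mem hs fun a ha x hx => by
      rw [mul_inv_cancel_left₀ (u0 _), ← one_mul a]
      exact ha x hx)
  refine ⟨k, ψ, fun l => pl g V' (b l), ?_, fun l x hx => mem_reg.1 (pl_reg g V' _) x hx,
    fun l l0 y hy => ?_⟩
  · rw [e1, map_sum]
    exact Finset.sum_congr rfl fun l _ => (pm_tmul _ _).trans (mul_comm _ _)
  · have m := (Submodule.mem_iInf _).1 (hψ l)
    by_cases z : c y = 0
    · have := m none y.1 (mem_off.2 ⟨hy, fun y' a b => a (pd_eq b ▸ z)⟩)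
      rw [one_mul] at this
      exact z.trans_le (reg_ord this)
    · have : 0 ≤ ord (u y * ψ l) y := reg_ord (m (some ⟨y, z, hy⟩) y.1 rfl)
      rw [ordm (u0 _) l0, hu] at this
      omega

end Vale.Agent.P283R.Eb
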