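import Vale.Agent.P283R.Eb.Dim
import Vale.Agent.P283R.Eb.Can
import Vale.Agent.P283R.Eb.Ctr
import Vale.Agent.P283R.Eb.Dscr
import Vale.Agent.P283R.Eb.Fanr
import Vale.Agent.P283R.Eb.Sec
import Vale.Agent.P283R.Eb.Amp
import Vale.Agent.P283R.Eb.Nef
import Vale.Agent.P283R.Sl.Un
import Vale.Agent.P283R.Sl.Eb

/-!
# P283R, block EB: bounded klt complements are étale local on the base
-/

open CategoryTheory AlgebraicGeometry

namespace Vale.Agent.P283R.Sl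

open Var

variable {C : ∀ (d : ℕ) (X Z : Var), (X.X ⟶ Z.X) → X.Form d → X.QDiv → Pt Z.X → Prop}

theorem bc_of {W X Y Z : Var} {f : X.X ⟶ Z.X} {e : W.X ⟶ Z.X} {g : Y.X ⟶ W.X} {π : Y.X ⟶ X.X}
    {w : Pt W.X} {z : Pt Z.X} (hf : Contraction f) (he : EtNb e w z) (h : BaseChange f e g π) :
    ∃ ι, Eb.Bc (X := X.o) (Z := Z.o) (Y := Y.o) (W := W.o) f e g π ι :=
  have : Etale π := MorphismProperty.of_isPullback h.1.flip he.1
  let ⟨ι, k⟩ := Et.exists_pe (W := Y.o) (Z := X.o) π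
  ⟨ι, hf, he.1, he.2.1, h.1, this, h.2, k⟩

/-- the descent, with the hypotheses `H` which pull back -/
theorem on_loc {H : ∀ (d : ℕ) (X Z : Var), (X.X ⟶ Z.X) → X.Form d → X.QDiv → Pt Z.X → Prop}
    (h : On C) (k : ∀ d X Z f ω B z, H d X Z f ω B z → 1 ≤ d → dimension X.str = d → ω.Nonzero →
      (∀ x, ∃ m g, 0 < m ∧ LocalEq (logCan ω B) m g x) → Contraction f → EtLocal (C d) f B z) :
    On H := by
  intro d hd ε hε R hR
  obtain ⟨n, hn, K⟩ := h d hd ε hε R hR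
  refine ⟨2 * n, by omega, fun X Z f ω B z a b c e s t u => ?_⟩
  obtain ⟨Y, W, g, π, e', w, ω', B', he, hb, h0, hs, hc⟩ :=
    k d X Z f ω B z u hd a b (fun x => c.2.1 x trivial) s
  obtain ⟨ι, bc⟩ := bc_of s he hb
  obtain rfl := he.2.2.1
  have c' := (pair_iff _ _ ω B).1 c
  refine (has_iff f ω B _ _).2 (Eb.dscr Eb.dim Eb.div Eb.lft Eb.con (Eb.sec_of Eb.div) _ _ _ _ _ _
    _ _ _ bc d n ω ω' B B' w hd hn a b h0 hs (fun y => c'.1 y trivial) t ((has_iff g ω' B' _ _).1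
      (K Y W g ω' B' w (Eb.dim _ _ _ _ bc.ep d a) h0 ((pair_iff _ _ ω' B').2
        (Eb.pai_of Eb.dim Eb.div _ _ _ _ bc.ep d ω ω' B B' _ a b h0 hs (fun x y p q => ?_) c'))
        (fun E => ?_) (Eb.con _ _ _ _ _ _ _ _ _ bc) he.2.2.2 hc)))
  · nlinarith
  · obtain ⟨y, p, -⟩ := Eb.div _ _ _ _ bc.ep E
    rw [hs E y p]
    exact e y

/-- **bounded klt complements are étale local on the base** -/
theorem on_et (h : On C) : On fun d _ _ f _ B z => EtLocal (C d) f B z :=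
  on_loc h fun _ _ _ _ _ _ _ u _ _ _ _ _ => u

theorem fan_up {W X Y Z : Var} {f : X.X ⟶ Z.X} {e : W.X ⟶ Z.X} {g : Y.X ⟶ W.X} {π : Y.X ⟶ X.X}
    {ι : X.o.K →+* Y.o.K} {d : ℕ} {ω : X.Form d} {ω' : Y.Form d}
    (bc : Eb.Bc (X := X.o) (Z := Z.o) (Y := Y.o) (W := W.o) f e g π ι) (hd : 1 ≤ d)
    (a : dimension X.str = d) (b : ω.Nonzero) (h0 : ω'.Nonzero) (u : FanoType f ω) :
    FanoType g ω' :=
  (fanoType_iff g ω').2 (Eb.fanr Eb.div (Eb.can_of Eb.dim Eb.div) (Eb.pai_of Eb.dim Eb.div)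
    (Eb.amp_of Eb.div) _ _ _ _ _ _ _ _ _ bc d ω ω' hd a b h0 ((fanoType_iff f ω).1 u))

theorem nef_up {W X Y Z : Var} {f : X.X ⟶ Z.X} {e : W.X ⟶ Z.X} {g : Y.X ⟶ W.X} {π : Y.X ⟶ X.X}
    {ι : X.o.K →+* Y.o.K} {d : ℕ} {ω : X.Form d} {ω' : Y.Form d} {B : X.QDiv} {B' : Y.QDiv}
    (bc : Eb.Bc (X := X.o) (Z := Z.o) (Y := Y.o) (W := W.o) f e g π ι) (hd : 1 ≤ d)
    (a : dimension X.str = d) (b : ω.Nonzero) (h0 : ω'.Nonzero)
    (hs : SameCoeff π B'.coeff B.coeff) (c : ∀ x, ∃ m g, 0 < m ∧ LocalEq (logCan ω B) m g x)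
    (v : NefOver f (-logCan ω B)) : NefOver g (-logCan ω' B') := by
  obtain ⟨j, hj⟩ := Eb.can_of Eb.dim Eb.div X.o Y.o π ι bc.ep d ω ω' a b h0
  have l := (hj B B' hs).neg
  have k := Eb.nef_of Eb.div _ _ _ _ _ _ _ _ _ bc _ _ _ l
    ((Eb.logCan_fin (X := X.o) hd a b B).subset fun y k => neg_ne_zero.1 k)
    (fun x => let ⟨m, _, p, q⟩ := c x; ⟨m, _, p, P283M.Br.localEq_neg P283M.Br.plc q⟩)
  exact (nefOver_iff g _).2 (k ((nefOver_iff f _).1 v))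

/-- the same with the hypotheses of the conjecture on `X` -/
theorem on_et' (h : On fun d X Z f ω B z =>
    FanoType f ω ∧ NefOver f (-logCan ω B) ∧ C d X Z f ω B z) :
    On fun d _ _ f ω B z => FanoType f ω ∧ NefOver f (-logCan ω B) ∧ EtLocal (C d) f B z := by
  refine on_loc h fun d X Z f ω B z u hd a b c s => ?_
  obtain ⟨u, v, Y, W, g, π, e, w, ω', B', he, hb, h0, hs, hc⟩ := u
  obtain ⟨ι, bc⟩ := bc_of s he hb
  exact ⟨Y, W, g, π, e, w, ω', B', he, hb, h0, hs, fan_up bc hd a b h0 u,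
    nef_up bc hd a b h0 hs c v, hc⟩

end Vale.Agent.P283R.Sl
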