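import Vale.Agent.P283R.Eb.Dscr

/-!
# P283R, block EB: the complement descends with the same index
-/

set_option linter.all false

open Set CategoryTheory AlgebraicGeometry
open Vale.Agent.P289 Vale.Agent.P289.H219 Vale.Agent.P270L Vale.Agent.P283M.Am Vale.Agent.P299.G

noncomputable section

namespace Vale.Agent.P283R.Eb

open Vale.Agent.P287D Vale.Agent.P283M Vale.Agent.P283M.Br Vale.Agent.P283M.Stm.Var
open Vale.Agent.P283M.Stm (Contraction Pair HasKltComplement)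
open Vale.Agent.P297Z Vale.Agent.P283R.Br

open Ds

/-- the descent with the same index `n ≥ 2` -/
theorem dscr2 (dim : DIM) (div : DIV) (lft : LFT) (con : CON) (sec : SEC) :
    ForB fun X _ Y W f e g π _ => ∀ (d n : ℕ) (ω : DForm ℂ X.K d)
      (ω' : DForm ℂ Y.K d) (B : X.QDiv) (B' : Y.QDiv) (w : Pt W.X), 1 ≤ d → 2 ≤ n →
      dimension X.str = d → ω.Nonzero → ω'.Nonzero → Same π B' B → (∀ y, 0 ≤ B y) →
      IsClosed ({w.map e} : Set _) → HasKltComplement g ω' B' n w →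
      HasKltComplement f ω B n (w.map e) := by
  intro X Z Y W f e g π ι bc d n ω ω' B B' w hd hn2 hdim hω hω' sm hB hz
    ⟨U', Λ, φ', wU, hΛ, hp, lq⟩
  have hn : 1 ≤ n := by omega
  classical
  obtain ⟨d, rfl⟩ : ∃ m, d = m + 1 := ⟨d - 1, by omega⟩
  have hK := ffd X _ hdim
  have hK' := ffd Y _ (dim X Y π ι bc.ep _ hdim)
  have hg : Contraction g := con X Z Y W f e g π ι bc
  let _ := ι.toAlgebra
  have : IsScalarTower ℂ X.K Y.K := .of_algebraMap_eq fun c => (bc.ep.pe.cst bc.ep.ov c).symm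
  obtain ⟨h, h0, fr⟩ := frm X _ hK ω hω
  obtain ⟨h', h0', fr'⟩ := frm Y _ hK' ω' hω'
  obtain ⟨J, J0, y, hy, e1, e2⟩ := Et.exists_rat hK hK'
  obtain ⟨_, ⟨V, hV, rfl⟩, zV, -⟩ :=
    Z.X.isBasis_affineOpens.exists_subset_of_mem_open (Set.mem_univ (e w)) isOpen_univ
  obtain ⟨_, ⟨V', hV', rfl⟩, wV, le⟩ := W.X.isBasis_affineOpens.exists_subset_of_mem_open
    (show w ∈ (U' ⊓ e ⁻¹ᵁ V : W.X.Opens) from ⟨wU, zV⟩) (U' ⊓ e ⁻¹ᵁ V).isOpen
  obtain ⟨A, χ, bs⟩ := exists_bz bc.con hV zV hz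
  obtain ⟨y₀, hy₀⟩ := hg.2.2.1.surj w
  have p0 : φ' ≠ 0 := (lq y₀ (show g y₀ ∈ U' from hy₀ ▸ wU)).1
  have n0 : (0 : ℝ) < n := Nat.cast_pos.2 hn
  have hJ := pow_ne_zero n (mul_ne_zero h0' J0)
  have φ0 : φ' / (h' * J) ^ n ≠ 0 := div_ne_zero p0 hJ
  have o : ∀ Q : Pl Y.K, (Q.ord (φ' / (h' * J) ^ n) : ℝ) =
      Q.ord φ' - n * (Q.ord h' + Q.ord J) := fun Q => by
    rw [Pl.ord_div _ p0 hJ, Pl.ord_pow, Pl.ord_mul _ h0' J0]
    push_cast
    rfl
  obtain ⟨k, ψ, b, x1, x0, x2⟩ := sec X Z Y W f e g π ι bc V V'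
    (fun E => ⌈(n : ℚ) * ((formOrd ω (RingEquiv.refl X.K) E : ℚ) - ord h E + B E)⌉)
    (φ' / (h' * J) ^ n) hV hV' (fun x hx => (le hx).2) ⟨w, wV⟩
    ((((form_fin hK fr).union (fin X h)).union B.support.finite_toSet).subset fun E hE =>
      by_contra fun k => hE (by
        rw [mem_union, mem_union, not_or, not_or, mem_setOf, mem_setOf, not_not, not_not,
          Finset.mem_coe, Finsupp.notMem_support_iff] at k
        simp [k.1.1, k.1.2, k.2])) φ0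
    fun E E₀ hE hπ => by
      obtain ⟨E₁, a1, a2⟩ := div X Y π ι bc.ep E
      obtain rfl : E₀ = E₁ := Subtype.ext (hπ.symm.trans a1)
      obtain ⟨Q, q, oq⟩ := pl_of plc E
      obtain ⟨P, p, op⟩ := pl_of plc E₀
      have a3 : ∀ a, Q.ord (ι a) = P.ord a := fun a => by rw [← oq, a2, op]
      have l : Lies (algebraMap X.K Y.K) Q P := fun a => by
        by_cases a0 : a = 0
        · simp [a0]
        rw [← Pl.ord_nonneg_iff _ a0, ← Pl.ord_nonneg_iff _ ((map_ne_zero _).2 a0), ← a3]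
        rfl
      have r := ((ram _ X.K Y.K (IsScalarTower.toAlgHom ℂ X.K Y.K) y hK hK' hy).2 Q P l).2.2
      change 1 + kap (fun i => algebraMap X.K Y.K (y i)) Q = Q.ord (ι P.t) * (1 + kap y P) at r
      rw [a3, P.ord_t] at r
      have hU : E.1 ∈ g ⁻¹ᵁ U' := (le hE).1
      have b1 := (lq _ hU).2 E specializes_rfl
      have b2 := hΛ E hU
      rw [sm E E₀ hπ, ← Rat.cast_le (K := ℝ)] at b2
      rw [oq, logCan] at b1
      have b3 : (Q.ord φ' : ℝ) = n * (formOrd ω' (RingEquiv.refl Y.K) E + (Λ E : ℝ)) := by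
        exact_mod_cast b1
      rw [fr' _ _ E Q q oq, e2] at b3
      rw [Int.ceil_le, oq, op, ← Rat.cast_le (K := ℝ)]
      push_cast at r ⊢
      rw [o, fr _ _ E₀ P p op, e1, b3]
      nlinarith
  refine down hK fr h0 hB hy e1 zV bs hn2 ψ ?_
    (fun l a E hE => Int.ceil_le.1 (x2 l a E hE)) fun P p => ?_
  · by_contra z
    simp only [not_exists, not_not] at z
    exact φ0 (x1.trans (Finset.sum_eq_zero fun j _ => by rw [z, map_zero, zero_mul]))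
  obtain ⟨x', c1, c2⟩ := bs.fib bc.con p
  obtain ⟨y', rfl, c3⟩ := Scheme.exists_preimage_of_isPullback bc.pb x' w c1
  obtain ⟨Q, l, c4⟩ := lft X Y π ι bc.ep _ y' P hdim c2
  have yV : y' ∈ g ⁻¹ᵁ V' := show g y' ∈ V' from c3 ▸ wV
  obtain ⟨x, c5, c6⟩ := ctr_of hg hV' yV c4
  obtain ⟨j, j0, j1⟩ := Et.exists_le (P := Q) (fun j => c4 _ (x0 j y' yV)) (x1 ▸ φ0)
  refine ⟨j, (map_ne_zero _).1 j0, ?_⟩
  have e0 : (0 : ℝ) < Q.ord (algebraMap X.K Y.K P.t) := by exact_mod_cast l.e_pos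
  have u := Tq.ld_up ram hK hK' hy e1 n (ψ j) (R := Q) l
  have ld1 : ld y n (ψ j) P = 1 + dsc (d + 1) ((n : ℝ)⁻¹ • dv (ψ j)) P := by
    simp only [ld, dsc, e1, Pi.sub_apply, Pi.smul_apply, dv, smul_eq_mul]
    ring
  rw [ld1, ← mul_pos_iff_of_pos_left e0, ← u]
  obtain ⟨M, E, rfl, i⟩ := mod Y Q x c6
  have oq := (plc Y M.Y M.pull (mdc Y M).1 E).2 Q i
  have b1 := hp.2.2 M E (le c5).1 n φ' hn (lq _ (le c5).1)
  rw [fr' _ _ E Q i oq, oq, e2] at b1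
  have b2 : (Q.ord (algebraMap X.K Y.K (ψ j)) : ℝ) ≤ Q.ord (φ' / (h' * J) ^ n) := by
    rw [← x1] at j1
    exact_mod_cast j1
  have b3 := div_le_div_of_nonneg_right b2 n0.le
  rw [o, sub_div, mul_div_cancel_left₀ _ n0.ne'] at b3
  unfold ld
  push_cast
  linarith

end Vale.Agent.P283R.Eb
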