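import Mathlib

/-!
# P283R, block EB: intersections of submodules and flat base change
-/

set_option linter.all false

open Set TensorProduct

noncomputable section

namespace Vale.Agent.P283R.Eb

variable {R C K : Type} [CommRing R] [CommRing C] [Algebra R C] [Field K] [Algebra R K]
  {N N' : Submodule R K} {t : C ⊗[R] K}

/-- the image of `C ⊗ N` -/
def sp (C : Type) [CommRing C] [Algebra R C] (N : Submodule R K) : Submodule R (C ⊗[R] K) :=
  LinearMap.range (LinearMap.lTensor C N.subtype)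

theorem tmul_mem (c : C) {x : K} (h : x ∈ N) : c ⊗ₜ x ∈ sp C N := ⟨c ⊗ₜ ⟨x, h⟩, rfl⟩

theorem map_mem {M : Type} [AddCommGroup M] [Module R M] (σ : M →ₗ[R] K) (h : ∀ m, σ m ∈ N)
    (t : C ⊗[R] M) : LinearMap.lTensor C σ t ∈ sp C N := by
  induction t with
  | zero => rw [map_zero]; exact zero_mem _
  | tmul c m => exact tmul_mem c (h m)
  | add a b ha hb => rw [map_add]; exact add_mem ha hb

theorem sp_ex (h : t ∈ sp C N) :
    ∃ (k : ℕ) (c : Fin k → C) (x : Fin k → K), (∀ l, x l ∈ N) ∧ t = ∑ l, c l ⊗ₜ x l := by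
  obtain ⟨s, rfl⟩ := h
  obtain ⟨k, c, x, rfl⟩ := TensorProduct.exists_sum_tmul_eq s
  exact ⟨k, c, fun l => x l, fun l => (x l).2, by rw [map_sum]; rfl⟩

/-- multiplication by an element of the field -/
def mu (a : K) : C ⊗[R] K →ₗ[R] C ⊗[R] K := LinearMap.lTensor C (LinearMap.mulLeft R a)

theorem mu_mu (a b : K) (t : C ⊗[R] K) : mu a (mu b t) = mu (a * b) t := by
  induction t with
  | zero => simp
  | tmul c m => simp [mu, mul_assoc]
  | add a b ha hb => simp only [map_add, ha, hb]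

theorem mu_one (t : C ⊗[R] K) : mu 1 t = t := by
  induction t with
  | zero => simp
  | tmul c m => simp [mu]
  | add a b ha hb => simp only [map_add, ha, hb]

theorem mu_mem {a : K} (h : t ∈ sp C N) (k : ∀ x ∈ N, a * x ∈ N') : mu a t ∈ sp C N' := by
  obtain ⟨n, c, x, hx, rfl⟩ := sp_ex h
  rw [map_sum]
  exact Submodule.sum_mem _ fun l _ => tmul_mem (c l) (k _ (hx l))

theorem sp_inf [Module.Flat R C] {I : Type} [Finite I] (N : I → Submodule R K)
    (h : ∀ i, t ∈ sp C (N i)) : t ∈ sp C (⨅ i, N i) := by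
  classical
  have := Fintype.ofFinite I
  let Φ : K →ₗ[R] ∀ i, K ⧸ N i := LinearMap.pi fun i => (N i).mkQ
  have e : LinearMap.ker Φ = ⨅ i, N i := by
    rw [LinearMap.ker_pi]
    exact iInf_congr fun i => Submodule.ker_mkQ _
  rw [← e]
  refine ((Module.Flat.lTensor_exact C (LinearMap.exact_subtype_ker_map Φ)) t).1 ?_
  have k : ∀ (s : C ⊗[R] K) (i : I), piRight R R C (fun i => K ⧸ N i) (LinearMap.lTensor C Φ s) i =
      LinearMap.lTensor C (N i).mkQ s := fun s i => by
    induction s with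
    | zero => simp
    | tmul c m => simp [Φ]
    | add a b ha hb => simp only [map_add, Pi.add_apply, ha, hb]
  refine (piRight R R C fun i => K ⧸ N i).injective (funext fun i => ?_)
  obtain ⟨n, c, x, hx, rfl⟩ := sp_ex (h i)
  rw [k, map_zero, map_sum]
  refine Finset.sum_eq_zero fun l _ => ?_
  rw [LinearMap.lTensor_tmul, Submodule.mkQ_apply, (Submodule.Quotient.mk_eq_zero _).2 (hx l),
    tmul_zero]

variable {K' : Type} [Field K'] [Algebra R K'] [Algebra C K'] [Algebra K K'] [IsScalarTower R C K']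
  [IsScalarTower R K K']

/-- the product map -/
def pm : C ⊗[R] K →ₐ[R] K' :=
  Algebra.TensorProduct.productMap (IsScalarTower.toAlgHom R C K') (IsScalarTower.toAlgHom R K K')

theorem pm_tmul (c : C) (x : K) :
    (pm (c ⊗ₜ[R] x) : K') = algebraMap C K' c * algebraMap K K' x := rfl

theorem pm_mu (a : K) (t : C ⊗[R] K) : (pm (mu a t) : K') = algebraMap K K' a * pm t := by
  induction t with
  | zero => simp
  | tmul c m =>
    rw [mu, LinearMap.lTensor_tmul, pm_tmul, pm_tmul, LinearMap.mulLeft_apply, map_mul]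
    ring
  | add a b ha hb => simp only [map_add, ha, hb, mul_add]

/-- injectivity is tested on a subring with the field of fractions `K` -/
theorem pm_inj {G : Type} [CommRing G] [Algebra R G] (σ : G →ₐ[R] K)
    (fr : ∀ x : K, ∃ s, σ s ≠ 0 ∧ ∃ a, σ a = σ s * x)
    (h : ∀ s : C ⊗[R] G, (pm (LinearMap.lTensor C σ.toLinearMap s) : K') = 0 → s = 0) :
    Function.Injective (pm : C ⊗[R] K → K') := by
  refine (injective_iff_map_eq_zero _).2 fun t ht => ?_
  have k : ∀ t : C ⊗[R] K, ∃ s, σ s ≠ 0 ∧ mu (σ s) t ∈ sp C (LinearMap.range σ.toLinearMap) :=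
    fun t => by
      induction t with
      | zero => exact ⟨1, by simp, by simp⟩
      | tmul c m =>
        obtain ⟨s, s0, a, e⟩ := fr m
        exact ⟨s, s0, tmul_mem c ⟨a, e⟩⟩
      | add a b ha hb =>
        obtain ⟨s, s0, hs⟩ := ha
        obtain ⟨u, u0, hu⟩ := hb
        refine ⟨s * u, by rw [map_mul]; exact mul_ne_zero s0 u0, ?_⟩
        rw [map_add, map_mul]
        refine add_mem ?_ ?_
        · rw [mul_comm, ← mu_mu]
          exact mu_mem hs fun _ ⟨x, e⟩ => ⟨u * x, e ▸ map_mul σ u x⟩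
        · rw [← mu_mu]
          exact mu_mem hu fun _ ⟨x, e⟩ => ⟨s * x, e ▸ map_mul σ s x⟩
  obtain ⟨s, s0, hs⟩ := k t
  obtain ⟨n, c, x, hx, e⟩ := sp_ex hs
  choose a ha using hx
  have e' : LinearMap.lTensor C σ.toLinearMap (∑ l, c l ⊗ₜ a l) = mu (σ s) t := by
    rw [e, map_sum]
    exact Finset.sum_congr rfl fun l _ => by rw [LinearMap.lTensor_tmul, ha]
  have := h _ (by rw [e', pm_mu, ht, mul_zero])
  rw [this, map_zero] at e'
  rw [← mu_one t, ← inv_mul_cancel₀ s0, ← mu_mu, ← e', map_zero]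

end Vale.Agent.P283R.Eb
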