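import Vale.Agent.P283R.Eb.St

/-!
# P283R, block EB: dimension, prime divisors and places along an étale morphism
-/

set_option linter.all false

open Set CategoryTheory AlgebraicGeometry
open Vale.Agent.P289 Vale.Agent.P289.H219 Vale.Agent.P270L Vale.Agent.P283M.Am Vale.Agent.P299.G

noncomputable section

namespace Vale.Agent.P283R.Eb

open Vale.Agent.P287D Vale.Agent.P283M Vale.Agent.P283M.Br Vale.Agent.P283M.Stm.Var
open Vale.Agent.P297Z Vale.Agent.P283R.Br Vale.Agent.P283R.Et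

variable {X Y : Stm.Var} {π : Y.X ⟶ X.X} {ι : X.K →+* Y.K}

theorem Ep.tw (h : Ep π ι) : letI := ι.toAlgebra; IsScalarTower ℂ X.K Y.K :=
  letI := ι.toAlgebra
  .of_algebraMap_eq fun c => (h.pe.cst h.ov c).symm

/-- the local rings at `y` and at `π y` -/
theorem Ep.loc (h : Ep π ι) (y : Pt Y.X) {T : Prop}
    (k : ∀ (O O' : Type) [CommRing O] [IsDomain O] [CommRing O'] [Algebra O X.K]
      [IsFractionRing O X.K] [Algebra O' Y.K] [IsFractionRing O' Y.K] [Algebra O O']
      [Algebra X.K Y.K] [Algebra O Y.K] [IsScalarTower O X.K Y.K] [IsScalarTower O O' Y.K]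
      [Module.Flat O O'] [Algebra.FormallyUnramified O O'] [Algebra.EssFiniteType O O']
      [IsLocalRing O] [IsLocalRing O'] [IsLocalHom (algebraMap O O')] [IsScalarTower ℂ X.K Y.K]
      [FiniteDimensional X.K Y.K], algebraMap X.K Y.K = ι →
      (∀ a, RegAt a (y.map π) ↔ ∃ b : O, algebraMap O X.K b = a) →
      (∀ a, RegAt a y ↔ ∃ b : O', algebraMap O' Y.K b = a) → T) : T := by
  have := h.et
  let O := X.X.presheaf.stalk (π y)
  let O' := Y.X.presheaf.stalk y
  let _ := ι.toAlgebra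
  let _ : Algebra O O' := (π.stalkMap y).hom.toAlgebra
  let _ : Algebra O Y.K := ((algebraMap O' Y.K).comp (π.stalkMap y).hom).toAlgebra
  have : IsScalarTower O X.K Y.K := .of_algebraMap_eq fun a => (h.pe y a).symm
  have : IsScalarTower O O' Y.K := .of_algebraMap_eq fun _ => rfl
  have : Module.Flat O O' := Flat.stalkMap π y
  have : Algebra.FormallyUnramified O O' := FormallyUnramified.stalkMap π y
  have : Algebra.EssFiniteType O O' := LocallyOfFiniteType.stalkMap π y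
  have : IsLocalHom (algebraMap O O') := inferInstanceAs (IsLocalHom (π.stalkMap y).hom)
  have := h.tw
  have := Algebra.FormallyUnramified.of_isLocalization (Rₘ := Y.K) (nonZeroDivisors O')
  have := Algebra.EssFiniteType.of_isLocalization Y.K (nonZeroDivisors O')
  have := Algebra.FormallyUnramified.comp O O' Y.K
  have := Algebra.EssFiniteType.comp O O' Y.K
  have := Algebra.FormallyUnramified.of_restrictScalars O X.K Y.K
  have := Algebra.EssFiniteType.of_comp O X.K Y.K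
  have : Module.Finite X.K Y.K := Algebra.FormallyUnramified.finite_of_free X.K Y.K
  exact k O O' rfl (fun _ => Iff.rfl) fun _ => Iff.rfl

theorem Ep.ff (h : Ep π ι) {d : ℕ} (hK : FF X.K d) : FF Y.K d :=
  h.loc (genericPoint Y.X) fun _ _ _ _ _ _ _ _ _ _ _ _ _ _ _ _ _ _ _ _ _ _ _ _ _ => Hd.ff_up hK

theorem dim : DIM := fun X _ _ _ h d hd => (h.ff (ffd X d hd)).trdeg

theorem lft : LFT := fun X Y π ι h _ y P _ k => h.loc y fun O O' _ _ _ _ _ _ _ _ _ _ _ _ _ _ _ _ _
    _ _ _ e r r' => by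
  obtain ⟨Q, l, o⟩ := up (O := O) (O' := O') (K' := Y.K) (IsFractionRing.injective _ _)
    fun a => k _ ((r _).2 ⟨a, rfl⟩)
  refine ⟨Q, e ▸ l, fun a ha => ?_⟩
  obtain ⟨b, rfl⟩ := (r' a).1 ha
  exact o b

/-- a point whose local ring is the ring of a place has codimension one -/
theorem cod {x : Pt X.X} {P : Pl X.K} (iff : ∀ g, g ∈ P.ring ↔ RegAt g x) : x.CodimOne := by
  let e : X.X.presheaf.stalk x ≃+* P.ring := RingEquiv.ofBijective
    ((toK x).codRestrict P.ring fun a => (iff _).2 ⟨a, rfl⟩)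
    ⟨fun a b c => toK_injective _ (congrArg Subtype.val c), fun ⟨g, hg⟩ =>
      let ⟨a, c⟩ := (iff g).1 hg; ⟨a, Subtype.ext c⟩⟩
  have := P.dvr
  have k3 := (ringKrullDim_eq_of_ringEquiv e).trans (IsDiscreteValuationRing.ringKrullDim_eq_one _)
  rw [ringKrullDim_stalk_eq_coheight] at k3
  exact_mod_cast k3

/-- the place of a prime divisor of `Y` lies, without ramification, over the place of its image -/
theorem Ep.pl (h : Ep π ι) {E : Y.PrimeDiv} {Q : Pl Y.K} (q : Is (RingEquiv.refl Y.K) E Q) :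
    ∃ (y : X.PrimeDiv) (P : Pl X.K), E.1.map π = y.1 ∧ Is (RingEquiv.refl X.K) y P ∧ Lies ι Q P ∧
      Q.ord (ι P.t) = 1 := h.loc E.1 fun O O' _ _ _ _ _ _ _ _ _ _ _ _ _ _ _ _ _ _ _ _ e r r' => by
  obtain ⟨d, hK⟩ := Md.exists_ff X
  obtain ⟨P, l⟩ := Pb.down hK (h.ff hK) Q
  have o : Ov O' Q := fun a => (q _).2 ((r' _).2 ⟨a, rfl⟩)
  have m : Pm O' Q := fun g hg =>
    let ⟨a, c⟩ := (r' g).1 ((q g).1 hg)
    ⟨a, 1, by rw [map_one]; exact q.dom.rd unAt_one, by rw [map_one, div_one, c]⟩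
  have hj := IsFractionRing.injective O' Y.K
  have iff : ∀ g, g ∈ P.ring ↔ RegAt g (E.1.map π) := fun g => ⟨fun hg => by
    obtain ⟨a, b, b0, rfl⟩ := pm_down (O := O) hj l o m g hg
    have rb := (r _).2 ⟨b, rfl⟩
    have u := un_of_rd q.dom (h.pe.reg rb)
      (e ▸ mt (Tq.rd_lies l (ov_down l o b)).1 b0)
    rw [div_eq_mul_inv]
    exact reg_mul ((r _).2 ⟨a, rfl⟩) ((h.pe.un rb).1 u).2.2, fun hg => by
      obtain ⟨a, rfl⟩ := (r g).1 hg
      exact ov_down l o a⟩
  exact ⟨⟨_, cod iff⟩, P, rfl, iff, e ▸ l, e ▸ e_one (O := O) hj l o m⟩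

theorem div : DIV := fun X Y π ι h E => by
  obtain ⟨Q, q, q'⟩ := pl_of plc E
  obtain ⟨y, P, a, b, l, e⟩ := h.pl q
  refine ⟨y, a, fun g => ?_⟩
  rw [q', l.ord, e, one_mul, (plc X X (RingEquiv.refl _) (fun _ => rfl) y).2 P b g |>.symm]
  rfl

end Vale.Agent.P283R.Eb
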