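import Vale.Agent.P283R.Et.Br

/-!
# P283R, block EB: klt complements are étale local on the base (the rows)
-/

open Set CategoryTheory AlgebraicGeometry

noncomputable section

namespace Vale.Agent.P283R.Eb

open Vale.Agent.P289 (Pt St toRat val DForm dimension)
open Vale.Agent.P287D Vale.Agent.P283M Vale.Agent.P283M.Stm Vale.Agent.P283M.Stm.Var
open Vale.Agent.P283R.Et (Pe)

section

variable {X Z Y W : Var}

/-- `π : Y → X` is étale, `ι` is the pull back of the functions -/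
structure Ep (π : Y.X ⟶ X.X) (ι : X.K →+* Y.K) : Prop where
  et : Etale π
  ov : π ≫ X.str = Y.str
  pe : Pe π ι

/-- `g : Y → W` is the base change of the contraction `f : X → Z` along the étale `e : W → Z` -/
structure Bc (f : X.X ⟶ Z.X) (e : W.X ⟶ Z.X) (g : Y.X ⟶ W.X) (π : Y.X ⟶ X.X)
    (ι : X.K →+* Y.K) : Prop where
  con : Contraction f
  et : Etale e
  ov : e ≫ Z.str = W.str
  pb : IsPullback π g f e
  ep : Ep π ι

/-- `D' = π^* D + div j` -/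
def Lin (π : Y.X ⟶ X.X) (D' : Y.PrimeDiv → ℚ) (D : X.PrimeDiv → ℚ) (j : Y.K) : Prop :=
  j ≠ 0 ∧ ∀ (E : Y.PrimeDiv) (y : X.PrimeDiv), E.1.map π = y.1 → D' E = D y + ord j E

/-- `D' = π^* D` -/
def Same (π : Y.X ⟶ X.X) (D' : Y.PrimeDiv → ℚ) (D : X.PrimeDiv → ℚ) : Prop :=
  ∀ (E : Y.PrimeDiv) (y : X.PrimeDiv), E.1.map π = y.1 → D' E = D y

end

/-- a statement on all étale morphisms -/
def ForP (T : ∀ (X Y : Var), (Y.X ⟶ X.X) → (X.K →+* Y.K) → Prop) : Prop :=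
  ∀ (X Y : Var) (π : Y.X ⟶ X.X) (ι : X.K →+* Y.K), Ep π ι → T X Y π ι

/-- a statement on all étale base changes -/
def ForB (T : ∀ (X Z Y W : Var), (X.X ⟶ Z.X) → (W.X ⟶ Z.X) → (Y.X ⟶ W.X) → (Y.X ⟶ X.X) →
    (X.K →+* Y.K) → Prop) : Prop :=
  ∀ (X Z Y W : Var) (f : X.X ⟶ Z.X) (e : W.X ⟶ Z.X) (g : Y.X ⟶ W.X) (π : Y.X ⟶ X.X)
    (ι : X.K →+* Y.K), Bc f e g π ι → T X Z Y W f e g π ι

/-- **DIM** -/
def DIM : Prop := ForP fun X Y _ _ => ∀ d : ℕ, dimension X.str = d → dimension Y.str = d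

/-- **DIV**: prime divisors go to prime divisors, without ramification -/
def DIV : Prop := ForP fun X Y π ι => ∀ E : Y.PrimeDiv, ∃ y : X.PrimeDiv, E.1.map π = y.1 ∧
  ∀ a, ord (ι a) E = ord a y

/-- **LFT**: places lift -/
def LFT : Prop := ForP fun X Y π ι => ∀ (d : ℕ) (y : Pt Y.X) (P : Pl X.K), dimension X.str = d →
  (∀ a, RegAt a (y.map π) → a ∈ P.ring) → ∃ Q : Pl Y.K, Lies ι Q P ∧ ∀ a, RegAt a y → a ∈ Q.ring

/-- **CAN**: the canonical divisor pulls back -/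
def CAN : Prop := ForP fun X Y π _ => ∀ (d : ℕ) (ω : DForm ℂ X.K d) (ω' : DForm ℂ Y.K d),
  dimension X.str = d → ω.Nonzero → ω'.Nonzero → ∃ j, ∀ (B : X.QDiv) (B' : Y.QDiv),
    Same π B' B → Lin π (logCan ω' B') (logCan ω B) j

/-- **PAI**: pairs pull back -/
def PAI : Prop := ForP fun X Y π _ => ∀ (d : ℕ) (ω : DForm ℂ X.K d) (ω' : DForm ℂ Y.K d)
  (B : X.QDiv) (B' : Y.QDiv) (p : ℝ → Prop), dimension X.str = d → ω.Nonzero → ω'.Nonzero →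
    Same π B' B → (∀ a e : ℝ, 1 ≤ e → p a → p (e * a)) → Pair p ⊤ ω B → Pair p ⊤ ω' B'

/-- **CON** -/
def CON : Prop := ForB fun _ _ _ _ _ _ g _ _ => Contraction g

/-- **AMP** -/
def AMP : Prop := ForB fun X _ Y _ f _ g π _ => ∀ (D : X.PrimeDiv → ℚ) (D' : Y.PrimeDiv → ℚ)
  (j : Y.K), Lin π D' D j → {y | D y ≠ 0}.Finite → AmpleOver f D → AmpleOver g D'

/-- **NEF** -/
def NEF : Prop := ForB fun X _ Y _ f _ g π _ => ∀ (D : X.PrimeDiv → ℚ) (D' : Y.PrimeDiv → ℚ)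
  (j : Y.K), Lin π D' D j → {y | D y ≠ 0}.Finite → (∀ x, ∃ m a, 0 < m ∧ LocalEq D m a x) →
    NefOver f D → NefOver g D'

/-- **FAN** -/
def FAN : Prop := ForB fun X _ Y _ f _ g _ _ => ∀ (d : ℕ) (ω : DForm ℂ X.K d) (ω' : DForm ℂ Y.K d),
  1 ≤ d → dimension X.str = d → ω.Nonzero → ω'.Nonzero → FanoType f ω → FanoType g ω'

/-- **SEC**: flat base change for the sections of a Weil divisor -/
def SEC : Prop := ForB fun X Z Y W f e g π ι => ∀ (V : Z.X.Opens) (V' : W.X.Opens)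
  (c : X.PrimeDiv → ℤ) (φ : Y.K), IsAffineOpen V → IsAffineOpen V' → V' ≤ e ⁻¹ᵁ V →
    (∃ w, w ∈ V') → {y | c y ≠ 0}.Finite → φ ≠ 0 →
    (∀ (E : Y.PrimeDiv) (y : X.PrimeDiv), E.1 ∈ g ⁻¹ᵁ V' → E.1.map π = y.1 → c y ≤ ord φ E) →
    ∃ (k : ℕ) (ψ : Fin k → X.K) (b : Fin k → Y.K), φ = ∑ l, ι (ψ l) * b l ∧
      (∀ l, ∀ x ∈ g ⁻¹ᵁ V', RegAt (b l) x) ∧
      ∀ l, ψ l ≠ 0 → ∀ y : X.PrimeDiv, y.1 ∈ f ⁻¹ᵁ V → c y ≤ ord (ψ l) y

/-- **DSC**: the complement descends -/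
def DSC : Prop := ForB fun X _ Y W f e g π _ => ∀ (d n : ℕ) (ω : DForm ℂ X.K d)
  (ω' : DForm ℂ Y.K d) (B : X.QDiv) (B' : Y.QDiv) (w : Pt W.X), 1 ≤ d → 1 ≤ n →
    dimension X.str = d → ω.Nonzero → ω'.Nonzero → Same π B' B → (∀ y, 0 ≤ B y) →
    IsClosed ({w.map e} : Set _) → HasKltComplement g ω' B' n w →
    HasKltComplement f ω B (2 * n) (w.map e)

/-- **FANR** -/
def FANR : Prop := DIV → CAN → PAI → AMP → FAN

/-- **DSCR** -/
def DSCR : Prop := DIM → DIV → LFT → CON → SEC → DSC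

end Vale.Agent.P283R.Eb
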