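import Vale.Agent.P283R.Eb.St
import Vale.Agent.P283R.Eb.Alg

/-!
# P283R, block EB: the regular functions on a base change
-/

set_option linter.all false

open Set CategoryTheory AlgebraicGeometry TensorProduct
open Vale.Agent.P289 Vale.Agent.P289.H219 Vale.Agent.P270L Vale.Agent.P283M.Am Vale.Agent.P299.G

noncomputable section

namespace Vale.Agent.P283R.Eb

open Vale.Agent.P287D Vale.Agent.P283M Vale.Agent.P283M.Br Vale.Agent.P283M.Stm.Var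
open Vale.Agent.P283R.Et (Pe)

variable {X Z Y W : Stm.Var} {f : X.X ⟶ Z.X} {e : W.X ⟶ Z.X} {g : Y.X ⟶ W.X} {π : Y.X ⟶ X.X}
  {V : Z.X.Opens} {V' : W.X.Opens}

theorem pl_le {U : X.X.Opens} (le : U ≤ f ⁻¹ᵁ V) [Nonempty U] [Nonempty ↑(f ⁻¹ᵁ V)]
    (r : Γ(Z.X, V)) : H594.secK U (f.appLE V U le r) = pl f V r := secK_res le _

theorem pe_sec {ι : X.K →+* Y.K} (h : Pe π ι) {U : X.X.Opens} {U' : Y.X.Opens} (le : U' ≤ π ⁻¹ᵁ U)
    [Nonempty U] [Nonempty U'] (a : Γ(X.X, U)) :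
    H594.secK U' (π.appLE U U' le a) = ι (H594.secK U a) := by
  obtain ⟨y, hy⟩ := ‹Nonempty U'›
  have : Nonempty ↑(π ⁻¹ᵁ U) := ⟨⟨y, le hy⟩⟩
  have : Nonempty U' := ⟨⟨y, hy⟩⟩
  rw [pl_le, ← pl_germ (f := π) (x := y) (le hy), ← H594.toK_germ U (π y) (le hy)]
  exact (h y _).symm

theorem com {ι : X.K →+* Y.K} (h : Bc f e g π ι) (le : V' ≤ e ⁻¹ᵁ V) [Nonempty ↑(f ⁻¹ᵁ V)]
    [Nonempty ↑(g ⁻¹ᵁ V')] (r : Γ(Z.X, V)) : pl g V' (e.appLE V V' le r) = ι (pl f V r) := by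
  have k : g ⁻¹ᵁ V' ≤ π ⁻¹ᵁ (f ⁻¹ᵁ V) := fun y hy => by
    change (π ≫ f) y ∈ V
    rw [h.pb.w]
    exact le hy
  rw [← pl_le le_rfl, ← pl_le (f := f) le_rfl, ← pe_sec h.ep.pe k]
  refine congrArg _ ?_
  change (e.appLE _ _ _ ≫ g.appLE _ _ _) r = (f.appLE _ _ _ ≫ π.appLE _ _ _) r
  simp only [Scheme.Hom.appLE_comp_appLE, h.pb.w]

variable [Algebra Γ(Z.X, V) Γ(W.X, V')] [Algebra Γ(Z.X, V) X.K] [Algebra Γ(Z.X, V) Y.K]
  [Algebra Γ(W.X, V') Y.K] [Algebra X.K Y.K] [IsScalarTower Γ(Z.X, V) Γ(W.X, V') Y.K]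
  [IsScalarTower Γ(Z.X, V) X.K Y.K] [Nonempty ↑(f ⁻¹ᵁ V)] [Nonempty ↑(g ⁻¹ᵁ V')]

theorem ten (h : Bc f e g π (algebraMap X.K Y.K)) (hV : IsAffineOpen V) (hV' : IsAffineOpen V')
    (le : V' ≤ e ⁻¹ᵁ V) (h1 : algebraMap Γ(Z.X, V) Γ(W.X, V') = (e.appLE V V' le).hom)
    (h2 : ∀ r, algebraMap Γ(Z.X, V) X.K r = pl f V r)
    (h3 : ∀ c, algebraMap Γ(W.X, V') Y.K c = pl g V' c) {U : X.X.Opens} (hU : U ≤ f ⁻¹ᵁ V)
    [Nonempty U] [Nonempty ↑(π ⁻¹ᵁ U ⊓ g ⁻¹ᵁ V')] :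
    (∀ N : Submodule Γ(Z.X, V) X.K, (∀ a ∈ reg U, a ∈ N) → ∀ x ∈ reg (π ⁻¹ᵁ U ⊓ g ⁻¹ᵁ V'),
      ∃ t ∈ sp Γ(W.X, V') N, pm t = x) ∧
    (IsAffineOpen U → Function.Injective (pm : Γ(W.X, V') ⊗[Γ(Z.X, V)] X.K → Y.K)) := by
  have := h.et
  have po := (isIso_pushoutSection_iff h.pb le hU rfl).1
    (isIso_pushoutSection_of_isQuasiSeparated_of_flat_right h.pb le hU rfl hV hV'
      (TopologicalSpace.NoetherianSpace.isCompact _)
      (fun _ _ _ _ _ _ _ _ => TopologicalSpace.NoetherianSpace.isCompact _))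
  set U' := π ⁻¹ᵁ U ⊓ g ⁻¹ᵁ V' with hU'
  let _ : Algebra Γ(Z.X, V) Γ(X.X, U) := (f.appLE V U hU).hom.toAlgebra
  let _ : Algebra Γ(X.X, U) Γ(Y.X, U') := (π.appLE U U' inf_le_left).hom.toAlgebra
  let _ : Algebra Γ(W.X, V') Γ(Y.X, U') := (g.appLE V' U' inf_le_right).hom.toAlgebra
  let _ : Algebra Γ(Z.X, V) Γ(Y.X, U') := (f.appLE V U hU ≫ π.appLE U U' inf_le_left).hom.toAlgebra
  have : IsScalarTower Γ(Z.X, V) Γ(X.X, U) Γ(Y.X, U') := .of_algebraMap_eq fun _ => rfl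
  have : IsScalarTower Γ(Z.X, V) Γ(W.X, V') Γ(Y.X, U') := .of_algebraMap_eq fun r => by
    rw [h1]
    exact congrArg (fun k => CommRingCat.Hom.hom k r) po.w
  have : Algebra.IsPushout Γ(Z.X, V) Γ(W.X, V') Γ(X.X, U) Γ(Y.X, U') :=
    CommRingCat.isPushout_iff_isPushout.1 (by rw [h1]; exact po.flip)
  let q := Algebra.IsPushout.equiv Γ(Z.X, V) Γ(W.X, V') Γ(X.X, U) Γ(Y.X, U')
  let σ : Γ(X.X, U) →ₐ[Γ(Z.X, V)] X.K := { (X.X.germToFunctionField U).hom with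
    commutes' := fun r => (pl_le hU r).trans (h2 r).symm }
  have k : ∀ s, pm (LinearMap.lTensor Γ(W.X, V') σ.toLinearMap s) = H594.secK U' (q s) := fun s => by
    induction s with
    | zero => rw [map_zero, map_zero, map_zero]; exact (map_zero _).symm
    | tmul c a =>
      rw [LinearMap.lTensor_tmul, pm_tmul, Algebra.IsPushout.equiv_tmul, h3,
        ← pl_le (f := g) (U := U') inf_le_right]
      refine Eq.trans ?_ (map_mul (Y.X.germToFunctionField U').hom _ _).symm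
      exact congrArg _ (pe_sec h.ep.pe inf_le_left a).symm
    | add a b ha hb =>
      rw [map_add, map_add, map_add, ha, hb]
      exact (map_add (Y.X.germToFunctionField U').hom _ _).symm
  refine ⟨fun N hN x hx => ?_, fun aU => pm_inj σ (fun x => ?_) fun s hs => ?_⟩
  · obtain ⟨a, rfl⟩ := Am.reg_iff.1 hx
    exact ⟨_, map_mem σ.toLinearMap (fun m => hN _ (secK_reg U m)) (q.symm a), by
      rw [k, q.apply_symm_apply]⟩
  · obtain ⟨p, hp⟩ := ‹Nonempty U›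
    have : Nonempty U := ⟨⟨p, hp⟩⟩
    obtain ⟨b, hb, u, hc⟩ := Am.frac aU ((genericPoint_specializes p).mem_open U.isOpen hp)
      (S.mem_loc_gen x)
    obtain ⟨s, rfl⟩ := Am.reg_iff.1 hb
    obtain ⟨a, ha⟩ := Am.reg_iff.1 hc
    exact ⟨s, u.1, a, ha⟩
  · rw [k] at hs
    exact (map_eq_zero_iff q q.injective).1
      (Y.X.germToFunctionField_injective U' (hs.trans (map_zero _).symm))

end Vale.Agent.P283R.Eb
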